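import Mathlib

set_option autoImplicit false

namespace Vale.Agent.P042.UB

variable {ι : Type} [Fintype ι] [DecidableEq ι] {Ω : ι → Type} [∀ i, Fintype (Ω i)]
  [∀ i, DecidableEq (Ω i)]

/-- Average over the finite product space `∏ Ω i`. -/
noncomputable def ex (f : (∀ i, Ω i) → ℝ) : ℝ := (∑ x, f x) / (Fintype.card (∀ i, Ω i) : ℝ)

/-- Conditional expectation given the coordinates in `T`. -/
noncomputable def cex (T : Finset ι) (f : (∀ i, Ω i) → ℝ) (x : ∀ i, Ω i) : ℝ :=
  ex (fun y => f (fun i => if i ∈ T then x i else y i))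

/-- Efron–Stein component `f^{=S}`. -/
noncomputable def cmp (f : (∀ i, Ω i) → ℝ) (S : Finset ι) (x : ∀ i, Ω i) : ℝ :=
  ∑ T ∈ S.powerset, (-1 : ℝ) ^ (S.card - T.card) * cex T f x

/-- Size of the space of coordinates in `S`. -/
def sz (Ω : ι → Type) [∀ i, Fintype (Ω i)] (S : Finset ι) : ℕ := ∏ i ∈ S, Fintype.card (Ω i)

section basics

variable [∀ i, Nonempty (Ω i)]

theorem ex_const (c : ℝ) : ex (fun _ : (∀ i, Ω i) => c) = c := by
  unfold ex
  have h : (Fintype.card (∀ i, Ω i) : ℝ) ≠ 0 := by
    exact_mod_cast Fintype.card_ne_zero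
  rw [Finset.sum_const, Finset.card_univ, nsmul_eq_mul]
  field_simp

theorem ex_add (f g : (∀ i, Ω i) → ℝ) : ex (fun x => f x + g x) = ex f + ex g := by
  unfold ex
  rw [Finset.sum_add_distrib, add_div]

theorem ex_mul_left (c : ℝ) (f : (∀ i, Ω i) → ℝ) : ex (fun x => c * f x) = c * ex f := by
  unfold ex
  rw [← Finset.mul_sum, mul_div_assoc]

theorem ex_sum {κ : Type} (s : Finset κ) (f : κ → (∀ i, Ω i) → ℝ) :
    ex (fun x => ∑ a ∈ s, f a x) = ∑ a ∈ s, ex (f a) := by
  unfold ex
  rw [Finset.sum_comm, Finset.sum_div]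

theorem ex_mono (f g : (∀ i, Ω i) → ℝ) (h : ∀ x, f x ≤ g x) : ex f ≤ ex g := by
  unfold ex
  have h0 : (0 : ℝ) ≤ (Fintype.card (∀ i, Ω i) : ℝ) := Nat.cast_nonneg _
  exact div_le_div_of_nonneg_right (Finset.sum_le_sum fun x _ => h x) h0

/-- `cex T f` depends only on the coordinates in `T`. -/
theorem cex_congr (T : Finset ι) (f : (∀ i, Ω i) → ℝ) (x y : ∀ i, Ω i)
    (h : ∀ i ∈ T, x i = y i) : cex T f x = cex T f y := by
  unfold cex
  congr 1
  funext z
  congr 1
  funext i
  by_cases hi : i ∈ T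
  · simp [hi, h i hi]
  · simp [hi]

theorem cex_add (T : Finset ι) (f g : (∀ i, Ω i) → ℝ) (x : ∀ i, Ω i) :
    cex T (fun x => f x + g x) x = cex T f x + cex T g x := by
  unfold cex
  exact ex_add _ _

theorem cex_mul_left (T : Finset ι) (c : ℝ) (f : (∀ i, Ω i) → ℝ) (x : ∀ i, Ω i) :
    cex T (fun x => c * f x) x = c * cex T f x := by
  unfold cex
  exact ex_mul_left _ _

theorem cex_sum {κ : Type} (T : Finset ι) (s : Finset κ) (f : κ → (∀ i, Ω i) → ℝ)
    (x : ∀ i, Ω i) : cex T (fun x => ∑ a ∈ s, f a x) x = ∑ a ∈ s, cex T (f a) x := by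
  unfold cex
  exact ex_sum _ _

theorem cex_mono (T : Finset ι) (f g : (∀ i, Ω i) → ℝ) (h : ∀ x, f x ≤ g x) (x : ∀ i, Ω i) :
    cex T f x ≤ cex T g x := by
  unfold cex
  exact ex_mono _ _ fun y => h _

/-- Averaging a function depending only on the coordinates in `T`. -/
theorem cex_of_dep (T : Finset ι) (f : (∀ i, Ω i) → ℝ)
    (hf : ∀ x y, (∀ i ∈ T, x i = y i) → f x = f y) (x : ∀ i, Ω i) : cex T f x = f x := by
  unfold cex
  have : (fun y : (∀ i, Ω i) => f (fun i => if i ∈ T then x i else y i)) = fun _ => f x := by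
    funext y
    apply hf
    intro i hi
    simp [hi]
  rw [this, ex_const]

theorem cex_empty (f : (∀ i, Ω i) → ℝ) (x : ∀ i, Ω i) : cex ∅ f x = ex f := by
  unfold cex
  simp

theorem cex_univ (f : (∀ i, Ω i) → ℝ) (x : ∀ i, Ω i) : cex Finset.univ f x = f x := by
  unfold cex
  simp only [Finset.mem_univ, if_true]
  exact ex_const _

omit [∀ i, DecidableEq (Ω i)] in
theorem ex_ex_mix (T : Finset ι) (f : (∀ i, Ω i) → ℝ) :
    ex (fun y : (∀ i, Ω i) => ex (fun z : (∀ i, Ω i) => f (fun i => if i ∈ T then y i else z i)))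
      = ex f := by
  classical
  have hN : (Fintype.card (∀ i, Ω i) : ℝ) ≠ 0 := by
    exact_mod_cast Fintype.card_ne_zero
  -- the involution on pairs
  let σ : (∀ i, Ω i) × (∀ i, Ω i) → (∀ i, Ω i) × (∀ i, Ω i) :=
    fun p => (fun i => if i ∈ T then p.1 i else p.2 i, fun i => if i ∈ T then p.2 i else p.1 i)
  have hσ : Function.Involutive σ := by
    intro p
    refine Prod.ext ?_ ?_
    · funext i
      by_cases hi : i ∈ T <;> simp [σ, hi]
    · funext i
      by_cases hi : i ∈ T <;> simp [σ, hi]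
  have key : ∑ y : (∀ i, Ω i), ∑ z : (∀ i, Ω i), f (fun i => if i ∈ T then y i else z i)
      = (Fintype.card (∀ i, Ω i) : ℝ) * ∑ y, f y := by
    rw [← Fintype.sum_prod_type' (f := fun y z : (∀ i, Ω i) =>
      f (fun i => if i ∈ T then y i else z i))]
    have h1 : ∑ p : (∀ i, Ω i) × (∀ i, Ω i), f (fun i => if i ∈ T then p.1 i else p.2 i)
        = ∑ p : (∀ i, Ω i) × (∀ i, Ω i), f p.1 := by
      have := Equiv.sum_comp (hσ.toPerm) (fun p : (∀ i, Ω i) × (∀ i, Ω i) => f p.1)
      rw [← this]
      rfl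
    rw [h1, Fintype.sum_prod_type' (f := fun y _ : (∀ i, Ω i) => f y)]
    simp only [Finset.sum_const, Finset.card_univ, nsmul_eq_mul]
    rw [Finset.mul_sum]
  unfold ex
  rw [← Finset.sum_div, key]
  field_simp

/-- Tower property. -/
theorem cex_cex (T T' : Finset ι) (f : (∀ i, Ω i) → ℝ) (x : ∀ i, Ω i) :
    cex T (cex T' f) x = cex (T ∩ T') f x := by
  unfold cex
  rw [← ex_ex_mix T' (fun y : (∀ i, Ω i) => f (fun i => if i ∈ T ∩ T' then x i else y i))]
  congr 1
  funext y
  congr 1
  funext z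
  congr 1
  funext i
  by_cases h1 : i ∈ T <;> by_cases h2 : i ∈ T' <;> simp [h1, h2]

theorem ex_cex (T : Finset ι) (f : (∀ i, Ω i) → ℝ) : ex (cex T f) = ex f := by
  exact ex_ex_mix T f

/-- Pull out a factor depending on the coordinates in `T` only. -/
theorem cex_mul_of_dep (T : Finset ι) (f g : (∀ i, Ω i) → ℝ)
    (hf : ∀ x y, (∀ i ∈ T, x i = y i) → f x = f y) (x : ∀ i, Ω i) :
    cex T (fun y => f y * g y) x = f x * cex T g x := by
  unfold cex
  rw [← ex_mul_left]
  congr 1
  funext y
  have h : f (fun i => if i ∈ T then x i else y i) = f x := by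
    apply hf
    intro i hi
    simp [hi]
  show f (fun i => if i ∈ T then x i else y i) * _ = _
  rw [h]

/-- `cex` as a normalised sum over the fibre. -/
theorem cex_eq_sum (T : Finset ι) (f : (∀ i, Ω i) → ℝ) (x : ∀ i, Ω i) :
    cex T f x = (sz Ω T : ℝ) * ex (fun y => if ∀ i ∈ T, y i = x i then f y else 0) := by
  classical
  have h1 : ex (fun y : (∀ i, Ω i) => if ∀ i ∈ T, y i = x i then f y else 0)
      = cex T f x * ex (fun y : (∀ i, Ω i) => if ∀ i ∈ T, y i = x i then (1 : ℝ) else 0) := by
    rw [← ex_ex_mix T, ← ex_mul_left]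
    congr 1
    funext y
    by_cases hy : ∀ i ∈ T, y i = x i
    · rw [if_pos hy, mul_one]
      unfold cex
      congr 1
      funext z
      have : (∀ i ∈ T, (if i ∈ T then y i else z i) = x i) := by
        intro i hi
        simp [hi, hy i hi]
      rw [if_pos this]
      congr 1
      funext i
      by_cases hi : i ∈ T
      · simp [hi, hy i hi]
      · simp [hi]
    · rw [if_neg hy, mul_zero]
      have : (fun z : (∀ i, Ω i) => if (∀ i ∈ T, (if i ∈ T then y i else z i) = x i)
          then f (fun i => if i ∈ T then y i else z i) else 0) = fun _ => 0 := by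
        funext z
        rw [if_neg]
        intro h
        apply hy
        intro i hi
        have := h i hi
        simpa [hi] using this
      rw [this, ex_const]
  have h2 : (sz Ω T : ℝ) * ex (fun y : (∀ i, Ω i) => if ∀ i ∈ T, y i = x i then (1 : ℝ) else 0)
      = 1 := by
    have hcount : (∑ y : (∀ i, Ω i), if ∀ i ∈ T, y i = x i then (1 : ℝ) else 0)
        = ∏ i ∈ Tᶜ, (Fintype.card (Ω i) : ℝ) := by
      rw [Finset.sum_boole]
      have hset : (Finset.univ.filter fun y : (∀ i, Ω i) => ∀ i ∈ T, y i = x i)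
          = Fintype.piFinset (fun i => if i ∈ T then {x i} else (Finset.univ : Finset (Ω i))) := by
        ext y
        simp only [Finset.mem_filter, Finset.mem_univ, true_and, Fintype.mem_piFinset]
        constructor
        · intro h i
          by_cases hi : i ∈ T
          · simp [hi, h i hi]
          · simp [hi]
        · intro h i hi
          have := h i
          simpa [hi] using this
      rw [hset, Fintype.card_piFinset, Nat.cast_prod, ← Finset.prod_mul_prod_compl T]
      have ha : ∏ i ∈ T, (((if i ∈ T then {x i} else (Finset.univ : Finset (Ω i))).card : ℕ) : ℝ)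
          = 1 := by
        apply Finset.prod_eq_one
        intro i hi
        simp [hi]
      have hb : ∏ i ∈ Tᶜ, (((if i ∈ T then {x i} else (Finset.univ : Finset (Ω i))).card : ℕ) : ℝ)
          = ∏ i ∈ Tᶜ, (Fintype.card (Ω i) : ℝ) := by
        apply Finset.prod_congr rfl
        intro i hi
        have : i ∉ T := by simpa using hi
        simp [this]
      rw [ha, hb, one_mul]
    have hcard : (Fintype.card (∀ i, Ω i) : ℝ)
        = (sz Ω T : ℝ) * ∏ i ∈ Tᶜ, (Fintype.card (Ω i) : ℝ) := by
      unfold sz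
      rw [Fintype.card_pi, Nat.cast_prod, Nat.cast_prod, Finset.prod_mul_prod_compl T]
    unfold ex
    rw [hcount, hcard]
    have ha : (sz Ω T : ℝ) ≠ 0 := by
      unfold sz
      rw [Nat.cast_prod]
      apply Finset.prod_ne_zero_iff.mpr
      intro i _
      exact_mod_cast Fintype.card_ne_zero
    have hb : ∏ i ∈ Tᶜ, (Fintype.card (Ω i) : ℝ) ≠ 0 := by
      apply Finset.prod_ne_zero_iff.mpr
      intro i _
      exact_mod_cast Fintype.card_ne_zero
    field_simp
  rw [h1]
  calc cex T f x = cex T f x * 1 := by ring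
    _ = cex T f x * ((sz Ω T : ℝ) *
        ex (fun y : (∀ i, Ω i) => if ∀ i ∈ T, y i = x i then (1 : ℝ) else 0)) := by rw [h2]
    _ = _ := by ring

/-- `cmp f S` depends only on the coordinates in `S`. -/
theorem cmp_congr (f : (∀ i, Ω i) → ℝ) (S : Finset ι) (x y : ∀ i, Ω i)
    (h : ∀ i ∈ S, x i = y i) : cmp f S x = cmp f S y := by
  unfold cmp
  apply Finset.sum_congr rfl
  intro T hT
  rw [cex_congr T f x y fun i hi => h i (Finset.mem_powerset.mp hT hi)]

theorem cmp_sum {κ : Type} (s : Finset κ) (f : κ → (∀ i, Ω i) → ℝ) (S : Finset ι)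
    (x : ∀ i, Ω i) : cmp (fun x => ∑ a ∈ s, f a x) S x = ∑ a ∈ s, cmp (f a) S x := by
  unfold cmp
  rw [Finset.sum_comm]
  apply Finset.sum_congr rfl
  intro T _
  rw [cex_sum, Finset.mul_sum]

theorem cmp_mul_left (c : ℝ) (f : (∀ i, Ω i) → ℝ) (S : Finset ι) (x : ∀ i, Ω i) :
    cmp (fun x => c * f x) S x = c * cmp f S x := by
  unfold cmp
  rw [Finset.mul_sum]
  apply Finset.sum_congr rfl
  intro T _
  rw [cex_mul_left]
  ring

/-- `cmp f S` has zero conditional expectation on `T` if `S` is not contained in `T`. -/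
theorem cex_cmp_of_not_subset (f : (∀ i, Ω i) → ℝ) (S T : Finset ι) (h : ¬ S ⊆ T)
    (x : ∀ i, Ω i) : cex T (cmp f S) x = 0 := by
  obtain ⟨a, haS, haT⟩ := Finset.not_subset.mp h
  have h1 : cex T (cmp f S) x
      = ∑ U ∈ S.powerset, (-1 : ℝ) ^ (S.card - U.card) * cex (T ∩ U) f x := by
    have : cmp f S = fun x => ∑ U ∈ S.powerset, (-1 : ℝ) ^ (S.card - U.card) * cex U f x := rfl
    rw [this, cex_sum]
    apply Finset.sum_congr rfl
    intro U _
    rw [cex_mul_left, cex_cex]
  rw [h1]
  have hins : insert a (S.erase a) = S := Finset.insert_erase haS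
  have hcard : S.card = (S.erase a).card + 1 := by
    rw [Finset.card_erase_of_mem haS]
    have : 0 < S.card := Finset.card_pos.mpr ⟨a, haS⟩
    omega
  rw [← hins, Finset.sum_powerset_insert (Finset.notMem_erase a S), hins,
    ← Finset.sum_add_distrib]
  apply Finset.sum_eq_zero
  intro U hU
  have hUsub : U ⊆ S.erase a := Finset.mem_powerset.mp hU
  have haU : a ∉ U := fun h => Finset.notMem_erase a S (hUsub h)
  have hUc : U.card ≤ (S.erase a).card := Finset.card_le_card hUsub
  have hcap : T ∩ insert a U = T ∩ U := by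
    ext i
    simp only [Finset.mem_inter, Finset.mem_insert]
    constructor
    · rintro ⟨h1, h2 | h2⟩
      · exact absurd (h2 ▸ h1) haT
      · exact ⟨h1, h2⟩
    · rintro ⟨h1, h2⟩
      exact ⟨h1, Or.inr h2⟩
  rw [hcap, Finset.card_insert_of_notMem haU, hcard]
  have e1 : (S.erase a).card + 1 - U.card = ((S.erase a).card - U.card) + 1 := by omega
  have e2 : (S.erase a).card + 1 - (U.card + 1) = (S.erase a).card - U.card := by omega
  rw [e1, e2, pow_succ]
  ring

theorem cex_cmp_of_subset (f : (∀ i, Ω i) → ℝ) (S T : Finset ι) (h : S ⊆ T)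
    (x : ∀ i, Ω i) : cex T (cmp f S) x = cmp f S x := by
  apply cex_of_dep
  intro x y hxy
  exact cmp_congr f S x y fun i hi => hxy i (h hi)

omit [Fintype ι] in
/-- Alternating sum over an interval of finsets. -/
theorem sum_Icc_neg_one_pow (S S' : Finset ι) (hS : S ⊆ S') :
    ∑ T ∈ S'.powerset.filter (fun T => S ⊆ T), (-1 : ℝ) ^ (S'.card - T.card)
      = if S = S' then 1 else 0 := by
  have hbij : ∑ T ∈ S'.powerset.filter (fun T => S ⊆ T), (-1 : ℝ) ^ (S'.card - T.card)
      = ∑ U ∈ (S' \ S).powerset, (-1 : ℝ) ^ U.card := by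
    apply Finset.sum_bij' (fun T _ => S' \ T) (fun U _ => S' \ U)
    · intro T hT
      simp only [Finset.mem_filter, Finset.mem_powerset] at hT
      rw [Finset.mem_powerset]
      exact Finset.sdiff_subset_sdiff (Finset.Subset.refl _) hT.2
    · intro U hU
      rw [Finset.mem_powerset] at hU
      simp only [Finset.mem_filter, Finset.mem_powerset]
      refine ⟨Finset.sdiff_subset, ?_⟩
      intro i hi
      rw [Finset.mem_sdiff]
      refine ⟨hS hi, fun hiU => ?_⟩
      have := hU hiU
      rw [Finset.mem_sdiff] at this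
      exact this.2 hi
    · intro T hT
      simp only [Finset.mem_filter, Finset.mem_powerset] at hT
      exact Finset.sdiff_sdiff_eq_self hT.1
    · intro U hU
      rw [Finset.mem_powerset] at hU
      exact Finset.sdiff_sdiff_eq_self (hU.trans Finset.sdiff_subset)
    · intro T hT
      simp only [Finset.mem_filter, Finset.mem_powerset] at hT
      rw [Finset.card_sdiff_of_subset hT.1]
  rw [hbij]
  have h := Finset.sum_powerset_neg_one_pow_card (x := S' \ S)
  have h' : ∑ U ∈ (S' \ S).powerset, (-1 : ℝ) ^ U.card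
      = ((∑ U ∈ (S' \ S).powerset, (-1 : ℤ) ^ U.card : ℤ) : ℝ) := by
    push_cast
    rfl
  rw [h', h]
  by_cases he : S = S'
  · subst he
    simp
  · have : ¬ (S' \ S = ∅) := by
      rw [Finset.sdiff_eq_empty_iff_subset]
      intro h2
      exact he (Finset.Subset.antisymm hS h2)
    simp [he, this]

/-- Components of components. -/
theorem cmp_cmp (f : (∀ i, Ω i) → ℝ) (S S' : Finset ι) (x : ∀ i, Ω i) :
    cmp (cmp f S) S' x = if S = S' then cmp f S x else 0 := by
  have h1 : cmp (cmp f S) S' x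
      = ∑ T ∈ S'.powerset, if S ⊆ T then (-1 : ℝ) ^ (S'.card - T.card) * cmp f S x else 0 := by
    show ∑ T ∈ S'.powerset, (-1 : ℝ) ^ (S'.card - T.card) * cex T (cmp f S) x = _
    apply Finset.sum_congr rfl
    intro T _
    by_cases h : S ⊆ T
    · rw [if_pos h, cex_cmp_of_subset f S T h]
    · rw [if_neg h, cex_cmp_of_not_subset f S T h, mul_zero]
  rw [h1, ← Finset.sum_filter, ← Finset.sum_mul]
  by_cases hS : S ⊆ S'
  · rw [sum_Icc_neg_one_pow S S' hS]
    split_ifs <;> simp
  · have hempty : S'.powerset.filter (fun T => S ⊆ T) = ∅ := by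
      apply Finset.filter_eq_empty_iff.mpr
      intro T hT h
      exact hS (h.trans (Finset.mem_powerset.mp hT))
    have hne : S ≠ S' := fun h => hS (h ▸ Finset.Subset.refl _)
    rw [hempty, if_neg hne]
    simp

/-- Efron–Stein decomposition of conditional expectations. -/
theorem cex_eq_sum_cmp (f : (∀ i, Ω i) → ℝ) (T : Finset ι) (x : ∀ i, Ω i) :
    cex T f x = ∑ S ∈ T.powerset, cmp f S x := by
  unfold cmp
  have h1 : ∀ S ∈ T.powerset, ∑ U ∈ S.powerset, (-1 : ℝ) ^ (S.card - U.card) * cex U f x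
      = ∑ U ∈ T.powerset, if U ⊆ S then (-1 : ℝ) ^ (S.card - U.card) * cex U f x else 0 := by
    intro S hS
    have hST : S ⊆ T := Finset.mem_powerset.mp hS
    rw [← Finset.sum_filter]
    apply Finset.sum_congr _ fun _ _ => rfl
    ext U
    simp only [Finset.mem_filter, Finset.mem_powerset]
    exact ⟨fun h => ⟨h.trans hST, h⟩, fun h => h.2⟩
  rw [Finset.sum_congr rfl h1, Finset.sum_comm]
  have h2 : ∀ U ∈ T.powerset,
      (∑ S ∈ T.powerset, if U ⊆ S then (-1 : ℝ) ^ (S.card - U.card) * cex U f x else 0)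
      = if U = T then cex U f x else 0 := by
    intro U hU
    have hUT : U ⊆ T := Finset.mem_powerset.mp hU
    rw [← Finset.sum_filter, ← Finset.sum_mul]
    have h3 : ∑ S ∈ T.powerset.filter (fun S => U ⊆ S), (-1 : ℝ) ^ (S.card - U.card)
        = (-1 : ℝ) ^ (T.card - U.card) *
          ∑ S ∈ T.powerset.filter (fun S => U ⊆ S), (-1 : ℝ) ^ (T.card - S.card) := by
      rw [Finset.mul_sum]
      apply Finset.sum_congr rfl
      intro S hS
      simp only [Finset.mem_filter, Finset.mem_powerset] at hS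
      have a1 : S.card ≤ T.card := Finset.card_le_card hS.1
      have a2 : U.card ≤ S.card := Finset.card_le_card hS.2
      have : T.card - U.card = (T.card - S.card) + (S.card - U.card) := by omega
      rw [this, pow_add]
      have hsq : (-1 : ℝ) ^ (T.card - S.card) * (-1 : ℝ) ^ (T.card - S.card) = 1 := by
        rw [← mul_pow]
        norm_num
      calc (-1 : ℝ) ^ (S.card - U.card)
          = ((-1 : ℝ) ^ (T.card - S.card) * (-1 : ℝ) ^ (T.card - S.card))
              * (-1 : ℝ) ^ (S.card - U.card) := by rw [hsq, one_mul]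
        _ = _ := by ring
    rw [h3, sum_Icc_neg_one_pow U T hUT]
    by_cases he : U = T
    · subst he
      simp
    · simp [he]
  rw [Finset.sum_congr rfl h2, Finset.sum_ite_eq_of_mem' _ _ _ (Finset.mem_powerset_self T)]

/-- Distinct components are orthogonal. -/
theorem ex_cmp_mul_cmp_of_ne (f g : (∀ i, Ω i) → ℝ) (S S' : Finset ι) (h : S ≠ S') :
    ex (fun x => cmp f S x * cmp g S' x) = 0 := by
  by_cases hS : S' ⊆ S
  · have hS' : ¬ S ⊆ S' := fun h2 => h (Finset.Subset.antisymm h2 hS)
    rw [← ex_cex S']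
    have : cex S' (fun x => cmp f S x * cmp g S' x) = fun _ => (0 : ℝ) := by
      funext x
      have h3 := cex_mul_of_dep S' (cmp g S') (cmp f S) (fun x y hxy => cmp_congr g S' x y hxy) x
      have h4 : (fun x => cmp f S x * cmp g S' x) = fun y => cmp g S' y * cmp f S y := by
        funext y
        ring
      rw [h4, h3, cex_cmp_of_not_subset f S S' hS', mul_zero]
    rw [this, ex_const]
  · rw [← ex_cex S]
    have : cex S (fun x => cmp f S x * cmp g S' x) = fun _ => (0 : ℝ) := by
      funext x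
      have h3 := cex_mul_of_dep S (cmp f S) (cmp g S') (fun x y hxy => cmp_congr f S x y hxy) x
      rw [h3, cex_cmp_of_not_subset g S' S hS, mul_zero]
    rw [this, ex_const]

/-- Orthogonality. -/
theorem ex_mul_cmp (f : (∀ i, Ω i) → ℝ) (S : Finset ι) :
    ex (fun x => f x * cmp f S x) = ex (fun x => cmp f S x ^ 2) := by
  have hf : ∀ x, f x = ∑ U ∈ (Finset.univ : Finset ι).powerset, cmp f U x := by
    intro x
    rw [← cex_eq_sum_cmp, cex_univ]
  have h1 : (fun x => f x * cmp f S x)
      = fun x => ∑ U ∈ (Finset.univ : Finset ι).powerset, cmp f U x * cmp f S x := by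
    funext x
    rw [← Finset.sum_mul, ← hf x]
  rw [h1, ex_sum]
  rw [Finset.sum_eq_single S]
  · congr 1
    funext x
    ring
  · intro U _ hU
    exact ex_cmp_mul_cmp_of_ne f f U S hU
  · intro h
    exact absurd (Finset.mem_powerset.mpr (Finset.subset_univ S)) h

theorem ex_mul_cex (f : (∀ i, Ω i) → ℝ) (T : Finset ι) :
    ex (fun x => f x * cex T f x) = ex (fun x => cex T f x ^ 2) := by
  rw [← ex_cex T]
  congr 1
  funext x
  have h := cex_mul_of_dep T (cex T f) f (fun x y hxy => cex_congr T f x y hxy) x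
  have h4 : (fun x => f x * cex T f x) = fun y => cex T f y * f y := by
    funext y
    ring
  rw [h4, h]
  ring

/-- Energy of a component through the conditional expectations. -/
theorem ex_cmp_sq (f : (∀ i, Ω i) → ℝ) (S : Finset ι) :
    ex (fun x => cmp f S x ^ 2) =
      ∑ T ∈ S.powerset, (-1 : ℝ) ^ (S.card - T.card) * ex (fun x => cex T f x ^ 2) := by
  rw [← ex_mul_cmp]
  have h1 : (fun x => f x * cmp f S x)
      = fun x => ∑ T ∈ S.powerset, (-1 : ℝ) ^ (S.card - T.card) * (f x * cex T f x) := by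
    funext x
    unfold cmp
    rw [Finset.mul_sum]
    apply Finset.sum_congr rfl
    intro T _
    ring
  rw [h1, ex_sum]
  apply Finset.sum_congr rfl
  intro T _
  have h2 := ex_mul_left ((-1 : ℝ) ^ (S.card - T.card)) (fun x => f x * cex T f x)
  rw [h2, ex_mul_cex]

end basics

end Vale.Agent.P042.UB
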