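import Vale.Agent.Lib.P042.UB.Prod.ES

set_option autoImplicit false

namespace Vale.Agent.P042.UB

/-- Second order Taylor bound for powers. -/
theorem pow_taylor {u v M : ℝ} (hu : 0 ≤ u) (huM : u ≤ M) (huv : 0 ≤ u + v) (huvM : u + v ≤ M)
    (k : ℕ) : (u + v) ^ (k + 2) ≤ u ^ (k + 2) + (k + 2) * u ^ (k + 1) * v +
      ((k + 2) * (k + 1) / 2) * v ^ 2 * M ^ k := by
  have hM : 0 ≤ M := hu.trans huM
  induction k with
  | zero =>
    simp
    nlinarith
  | succ k ih =>
    have h1 := mul_le_mul_of_nonneg_left ih huv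
    have h2 : (u + v) ^ (k + 1 + 2) = (u + v) * (u + v) ^ (k + 2) := by ring
    have h3 : u ^ (k + 1) ≤ M ^ (k + 1) := pow_le_pow_left₀ hu huM _
    have h4 : (u + v) * M ^ k ≤ M ^ (k + 1) := by
      rw [pow_succ']
      exact mul_le_mul_of_nonneg_right huvM (pow_nonneg hM k)
    have hv : 0 ≤ v ^ 2 := sq_nonneg v
    have h5 := mul_le_mul_of_nonneg_left h3 hv
    have h6 := mul_le_mul_of_nonneg_left h4 hv
    rw [h2]
    have e1 : (u + v) * (u ^ (k + 2) + (k + 2) * u ^ (k + 1) * v +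
        ((k + 2) * (k + 1) / 2) * v ^ 2 * M ^ k) =
        u ^ (k + 1 + 2) + ((k + 1 : ℝ) + 2) * u ^ (k + 1 + 1) * v +
        (k + 2) * (v ^ 2 * u ^ (k + 1)) +
        ((k + 2) * (k + 1) / 2) * (v ^ 2 * ((u + v) * M ^ k)) := by ring
    rw [e1] at h1
    refine h1.trans ?_
    push_cast
    have h7 : ((k : ℝ) + 2) * (v ^ 2 * u ^ (k + 1)) ≤ (k + 2) * (v ^ 2 * M ^ (k + 1)) :=
      mul_le_mul_of_nonneg_left h5 (by positivity)
    have h8 : (((k : ℝ) + 2) * (k + 1) / 2) * (v ^ 2 * ((u + v) * M ^ k)) ≤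
        (((k : ℝ) + 2) * (k + 1) / 2) * (v ^ 2 * M ^ (k + 1)) :=
      mul_le_mul_of_nonneg_left h6 (by positivity)
    have e2 : (((k : ℝ) + 1 + 2) * (k + 1 + 1) / 2) * v ^ 2 * M ^ (k + 1) =
        (k + 2) * (v ^ 2 * M ^ (k + 1)) + (((k : ℝ) + 2) * (k + 1) / 2) * (v ^ 2 * M ^ (k + 1)) := by
      ring
    rw [e2]
    linarith

/-- pointwise inequality behind `one_coord` (case `n ≥ 2`) -/
theorem one_point {E : Type} [NormedAddCommGroup E] [InnerProductSpace ℝ E] (k : ℕ) (a b : E) :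
    ‖a + b‖ ^ (2 * (k + 2)) ≤ ‖a‖ ^ (2 * (k + 2)) +
      (k + 2) * ‖a‖ ^ (2 * (k + 1)) * (2 * inner ℝ a b) +
      6 * (k + 2) ^ 2 * ‖a‖ ^ (2 * (k + 1)) * ‖b‖ ^ 2 +
      (8 * (k + 2)) ^ (2 * (k + 2)) * ‖b‖ ^ (2 * (k + 2)) := by
  set A := ‖a‖ with hA
  set B := ‖b‖ with hB
  have hA0 : 0 ≤ A := norm_nonneg a
  have hB0 : 0 ≤ B := norm_nonneg b
  set I := inner ℝ a b with hI
  have hI1 : |I| ≤ A * B := abs_real_inner_le_norm a b
  have hsq : ‖a + b‖ ^ 2 = A ^ 2 + (2 * I + B ^ 2) := by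
    rw [norm_add_sq_real]
    ring
  have hle : ‖a + b‖ ≤ A + B := norm_add_le a b
  have hM1 : A ^ 2 ≤ (A + B) ^ 2 := pow_le_pow_left₀ hA0 (by linarith) 2
  have hM2 : A ^ 2 + (2 * I + B ^ 2) ≤ (A + B) ^ 2 := by
    rw [← hsq]
    exact pow_le_pow_left₀ (norm_nonneg _) hle 2
  have h0 : 0 ≤ A ^ 2 + (2 * I + B ^ 2) := by
    rw [← hsq]
    positivity
  have ht := pow_taylor (sq_nonneg A) hM1 h0 hM2 k
  rw [pow_mul, hsq]
  refine ht.trans ?_
  have hv : (2 * I + B ^ 2) ^ 2 ≤ 4 * (A + B) ^ 2 * B ^ 2 := by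
    have h1 : |2 * I + B ^ 2| ≤ 2 * (A + B) * B := by
      have h2 : |2 * I + B ^ 2| ≤ |2 * I| + |B ^ 2| := abs_add_le _ _
      rw [abs_mul, abs_of_pos (by norm_num : (0 : ℝ) < 2), abs_of_nonneg (sq_nonneg B)] at h2
      nlinarith
    have h3 := pow_le_pow_left₀ (abs_nonneg _) h1 2
    rw [sq_abs] at h3
    refine h3.trans (le_of_eq ?_)
    ring
  -- the remainder
  have hrem : ((k : ℝ) + 2) * (k + 1) / 2 * (2 * I + B ^ 2) ^ 2 * ((A + B) ^ 2) ^ k ≤
      2 * (k + 2) * (k + 1) * B ^ 2 * (A + B) ^ (2 * (k + 1)) := by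
    have h1 : ((k : ℝ) + 2) * (k + 1) / 2 * (2 * I + B ^ 2) ^ 2 * ((A + B) ^ 2) ^ k ≤
        ((k : ℝ) + 2) * (k + 1) / 2 * (4 * (A + B) ^ 2 * B ^ 2) * ((A + B) ^ 2) ^ k := by
      refine mul_le_mul_of_nonneg_right (mul_le_mul_of_nonneg_left hv (by positivity))
        (by positivity)
    refine h1.trans (le_of_eq ?_)
    rw [← pow_mul]
    ring
  have hkey : 2 * ((k : ℝ) + 2) * (k + 1) * B ^ 2 * (A + B) ^ (2 * (k + 1)) ≤
      6 * (k + 2) * (k + 1) * A ^ (2 * (k + 1)) * B ^ 2 +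
      (8 * (k + 2)) ^ (2 * (k + 2)) * B ^ (2 * (k + 2)) := by
    by_cases hc : 2 * ((k : ℝ) + 2) * B ≤ A
    · -- `B` small
      have h1 : A + B ≤ (1 + 1 / (2 * ((k : ℝ) + 2))) * A := by
        have h2 : B ≤ 1 / (2 * ((k : ℝ) + 2)) * A := by
          rw [one_div, ← div_eq_inv_mul, le_div_iff₀ (by positivity)]
          linarith
        linarith
      have h2 : (A + B) ^ (2 * (k + 1)) ≤
          (1 + 1 / (2 * ((k : ℝ) + 2))) ^ (2 * (k + 1)) * A ^ (2 * (k + 1)) := by
        rw [← mul_pow]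
        exact pow_le_pow_left₀ (by positivity) h1 _
      have h3 : (1 + 1 / (2 * ((k : ℝ) + 2))) ^ (2 * (k + 1)) ≤ 3 := by
        have h4 : 1 + 1 / (2 * ((k : ℝ) + 2)) ≤ Real.exp (1 / (2 * ((k : ℝ) + 2))) := by
          rw [add_comm]
          exact Real.add_one_le_exp _
        have h5 := pow_le_pow_left₀ (by positivity) h4 (2 * (k + 1))
        refine h5.trans ?_
        rw [← Real.exp_nat_mul]
        have h6 : ((2 * (k + 1) : ℕ) : ℝ) * (1 / (2 * ((k : ℝ) + 2))) ≤ 1 := by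
          push_cast
          rw [mul_one_div, div_le_one (by positivity)]
          linarith
        exact (Real.exp_le_exp.2 h6).trans (Real.exp_one_lt_d9.le.trans (by norm_num))
      have h7 : (A + B) ^ (2 * (k + 1)) ≤ 3 * A ^ (2 * (k + 1)) :=
        h2.trans (mul_le_mul_of_nonneg_right h3 (by positivity))
      have h8 := mul_le_mul_of_nonneg_left h7
        (by positivity : 0 ≤ 2 * ((k : ℝ) + 2) * (k + 1) * B ^ 2)
      have h9 : 0 ≤ (8 * ((k : ℝ) + 2)) ^ (2 * (k + 2)) * B ^ (2 * (k + 2)) := by positivity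
      calc 2 * ((k : ℝ) + 2) * (k + 1) * B ^ 2 * (A + B) ^ (2 * (k + 1))
          ≤ 2 * ((k : ℝ) + 2) * (k + 1) * B ^ 2 * (3 * A ^ (2 * (k + 1))) := h8
        _ = 6 * (k + 2) * (k + 1) * A ^ (2 * (k + 1)) * B ^ 2 := by ring
        _ ≤ _ := by linarith
    · -- `B` large
      push Not at hc
      have h1 : A + B ≤ (8 * ((k : ℝ) + 2)) * B := by nlinarith
      have h1' : A + B ≤ (4 * ((k : ℝ) + 2)) * B := by nlinarith
      have h2 : (A + B) ^ (2 * (k + 1)) ≤ ((4 * ((k : ℝ) + 2)) * B) ^ (2 * (k + 1)) :=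
        pow_le_pow_left₀ (by positivity) h1' _
      have h3 := mul_le_mul_of_nonneg_left h2
        (by positivity : 0 ≤ 2 * ((k : ℝ) + 2) * (k + 1) * B ^ 2)
      have h4 : 2 * ((k : ℝ) + 2) * (k + 1) * B ^ 2 * ((4 * ((k : ℝ) + 2)) * B) ^ (2 * (k + 1)) =
          (2 * ((k : ℝ) + 2) * (k + 1) * (4 * ((k : ℝ) + 2)) ^ (2 * (k + 1))) *
            B ^ (2 * (k + 2)) := by
        rw [mul_pow, show 2 * (k + 2) = 2 * (k + 1) + 2 by ring, pow_add B]
        ring
      have h5 : 2 * ((k : ℝ) + 2) * (k + 1) * (4 * ((k : ℝ) + 2)) ^ (2 * (k + 1)) ≤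
          (8 * ((k : ℝ) + 2)) ^ (2 * (k + 2)) := by
        have h6 : 2 * ((k : ℝ) + 2) * (k + 1) ≤ (8 * ((k : ℝ) + 2)) ^ 2 := by nlinarith
        have h7 : (4 * ((k : ℝ) + 2)) ^ (2 * (k + 1)) ≤ (8 * ((k : ℝ) + 2)) ^ (2 * (k + 1)) :=
          pow_le_pow_left₀ (by positivity) (by linarith) _
        have h8 := mul_le_mul h6 h7 (by positivity) (by positivity)
        refine h8.trans (le_of_eq ?_)
        rw [show 2 * (k + 2) = 2 + 2 * (k + 1) by ring, pow_add]
      have h9 := mul_le_mul_of_nonneg_right h5 (by positivity : 0 ≤ B ^ (2 * (k + 2)))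
      have h10 : 0 ≤ 6 * ((k : ℝ) + 2) * (k + 1) * A ^ (2 * (k + 1)) * B ^ 2 := by positivity
      linarith
  have e1 : (A ^ 2) ^ (k + 1) = A ^ (2 * (k + 1)) := by rw [← pow_mul]
  have e2 : (A ^ 2) ^ (k + 2) = A ^ (2 * (k + 2)) := by rw [← pow_mul]
  rw [e1, e2]
  have h11 : ((k : ℝ) + 2) * A ^ (2 * (k + 1)) * B ^ 2 +
      6 * (k + 2) * (k + 1) * A ^ (2 * (k + 1)) * B ^ 2 ≤
      6 * (k + 2) ^ 2 * A ^ (2 * (k + 1)) * B ^ 2 := by
    have h12 : 0 ≤ A ^ (2 * (k + 1)) * B ^ 2 := by positivity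
    have h13 : ((k : ℝ) + 2) + 6 * (k + 2) * (k + 1) ≤ 6 * (k + 2) ^ 2 := by nlinarith
    have h14 := mul_le_mul_of_nonneg_right h13 h12
    refine le_trans (le_of_eq ?_) (h14.trans (le_of_eq ?_)) <;> ring
  have e3 : ((k : ℝ) + 2) * A ^ (2 * (k + 1)) * (2 * I + B ^ 2) =
      (k + 2) * A ^ (2 * (k + 1)) * (2 * I) + (k + 2) * A ^ (2 * (k + 1)) * B ^ 2 := by ring
  rw [e3]
  linarith

/-- first two terms of the binomial expansion -/
theorem add_pow_ge_aux (n : ℕ) {u w : ℝ} (hu : 0 ≤ u) (hw : 0 ≤ w) :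
    u ^ n + n * u ^ (n - 1) * w ≤ (u + w) ^ n := by
  induction n with
  | zero => simp
  | succ n ih =>
    rcases Nat.eq_zero_or_pos n with h | h
    · subst h
      simp
    · obtain ⟨k, rfl⟩ : ∃ k, n = k + 1 := ⟨n - 1, by omega⟩
      have h1 := mul_le_mul_of_nonneg_right ih (add_nonneg hu hw)
      rw [← pow_succ] at h1
      refine le_trans ?_ h1
      simp only [Nat.add_sub_cancel]
      have h2 : 0 ≤ ((k + 1 : ℕ) : ℝ) * u ^ k * w * w := by positivity
      have e : (u ^ (k + 1) + ((k + 1 : ℕ) : ℝ) * u ^ k * w) * (u + w) =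
          u ^ (k + 1 + 1) + ((k + 1 + 1 : ℕ) : ℝ) * u ^ (k + 1) * w +
            ((k + 1 : ℕ) : ℝ) * u ^ k * w * w := by
        push_cast
        ring
      rw [e]
      linarith

/-- One-coordinate inequality in a real inner product space. -/
theorem one_coord {E : Type} [NormedAddCommGroup E] [InnerProductSpace ℝ E] {Y : Type} [Fintype Y]
    [Nonempty Y] (n : ℕ) (hn : 1 ≤ n) (a : E) (b : Y → E) (hb : ∑ y, b y = 0) :
    (∑ y, ‖a + b y‖ ^ (2 * n)) / (Fintype.card Y : ℝ) ≤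
      (‖a‖ ^ 2 + 3 * (2 * n) * ((∑ y, ‖b y‖ ^ 2) / (Fintype.card Y : ℝ))) ^ n +
        (4 * (2 * n) : ℝ) ^ (2 * n) * ((∑ y, ‖b y‖ ^ (2 * n)) / (Fintype.card Y : ℝ)) := by
  have hc : 0 < (Fintype.card Y : ℝ) := by exact_mod_cast Fintype.card_pos
  have hin : ∑ y, inner ℝ a (b y) = 0 := by
    rw [← inner_sum, hb, inner_zero_right]
  have hβ : 0 ≤ (∑ y, ‖b y‖ ^ 2) / (Fintype.card Y : ℝ) := by positivity
  obtain rfl | ⟨k, rfl⟩ : n = 1 ∨ ∃ k, n = k + 2 := by
    rcases Nat.lt_or_ge n 2 with h | h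
    · exact Or.inl (by omega)
    · exact Or.inr ⟨n - 2, by omega⟩
  · -- `n = 1`
    have h1 : ∀ y, ‖a + b y‖ ^ (2 * 1) = ‖a‖ ^ 2 + 2 * inner ℝ a (b y) + ‖b y‖ ^ 2 := by
      intro y
      rw [mul_one, norm_add_sq_real]
    simp_rw [h1]
    rw [Finset.sum_add_distrib, Finset.sum_add_distrib, ← Finset.mul_sum, hin]
    simp only [Finset.sum_const, Finset.card_univ, nsmul_eq_mul, mul_zero, add_zero, mul_one,
      pow_one, Nat.cast_one]
    rw [add_div, mul_div_cancel_left₀ _ hc.ne']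
    have h2 : (0 : ℝ) ≤ (4 * 2) ^ 2 * ((∑ y, ‖b y‖ ^ 2) / (Fintype.card Y : ℝ)) := by positivity
    nlinarith
  · -- `n = k + 2`
    have hsum : ∑ y, ‖a + b y‖ ^ (2 * (k + 2)) ≤ ∑ y, (‖a‖ ^ (2 * (k + 2)) +
        (k + 2) * ‖a‖ ^ (2 * (k + 1)) * (2 * inner ℝ a (b y)) +
        6 * (k + 2) ^ 2 * ‖a‖ ^ (2 * (k + 1)) * ‖b y‖ ^ 2 +
        (8 * (k + 2)) ^ (2 * (k + 2)) * ‖b y‖ ^ (2 * (k + 2))) :=
      Finset.sum_le_sum fun y _ => one_point k a (b y)
    rw [Finset.sum_add_distrib, Finset.sum_add_distrib, Finset.sum_add_distrib,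
      ← Finset.mul_sum, ← Finset.mul_sum, ← Finset.mul_sum, ← Finset.mul_sum, hin] at hsum
    simp only [Finset.sum_const, Finset.card_univ, nsmul_eq_mul, mul_zero, add_zero] at hsum
    have h1 := div_le_div_of_nonneg_right hsum hc.le
    refine h1.trans ?_
    rw [add_div, add_div, mul_div_cancel_left₀ _ hc.ne', mul_div_assoc, mul_div_assoc]
    set β := (∑ y, ‖b y‖ ^ 2) / (Fintype.card Y : ℝ) with hβd
    have h2 : ‖a‖ ^ (2 * (k + 2)) + 6 * ((k : ℝ) + 2) ^ 2 * ‖a‖ ^ (2 * (k + 1)) * β ≤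
        (‖a‖ ^ 2 + 3 * (2 * ((k + 2 : ℕ) : ℝ)) * β) ^ (k + 2) := by
      set w := 3 * (2 * ((k + 2 : ℕ) : ℝ)) * β with hw
      have hw0 : 0 ≤ w := by positivity
      have h3 := add_pow_ge_aux (k + 2) (sq_nonneg ‖a‖) hw0
      refine le_trans (le_of_eq ?_) h3
      rw [← pow_mul]
      have e1 : (‖a‖ ^ 2) ^ (k + 2 - 1) = ‖a‖ ^ (2 * (k + 1)) := by
        rw [← pow_mul]
        congr 1
      rw [e1, hw]
      push_cast
      ring
    have e2 : (4 * (2 * ((k + 2 : ℕ) : ℝ))) = 8 * ((k : ℝ) + 2) := by push_cast; ring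
    rw [e2]
    linarith

variable {ι : Type} [Fintype ι] [DecidableEq ι] {Ω : ι → Type} [∀ i, Fintype (Ω i)]
  [∀ i, DecidableEq (Ω i)] [∀ i, Nonempty (Ω i)]

/-- averaging over one coordinate -/
theorem cex_compl_singleton (i : ι) (f : (∀ i, Ω i) → ℝ) (x : ∀ i, Ω i) :
    cex ({i}ᶜ) f x = (∑ y : Ω i, f (Function.update x i y)) / (Fintype.card (Ω i) : ℝ) := by
  rw [cex_eq_sum]
  unfold ex
  have h1 : ∑ y : (∀ i, Ω i), (if ∀ j ∈ ({i}ᶜ : Finset ι), y j = x j then f y else 0) =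
      ∑ y : Ω i, f (Function.update x i y) := by
    rw [← Finset.sum_filter]
    refine Finset.sum_bij' (fun y _ => y i) (fun y _ => Function.update x i y) ?_ ?_ ?_ ?_ ?_
    · intro y _
      exact Finset.mem_univ _
    · intro y _
      rw [Finset.mem_filter]
      refine ⟨Finset.mem_univ _, fun j hj => ?_⟩
      have hji : j ≠ i := by
        rw [Finset.mem_compl, Finset.mem_singleton] at hj
        exact hj
      exact Function.update_of_ne hji _ _
    · intro y hy
      rw [Finset.mem_filter] at hy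
      funext j
      by_cases hji : j = i
      · subst hji
        simp
      · rw [Function.update_of_ne hji]
        exact (hy.2 j (by simp [hji])).symm
    · intro y _
      simp
    · intro y hy
      rw [Finset.mem_filter] at hy
      congr 1
      funext j
      by_cases hji : j = i
      · subst hji
        simp
      · rw [Function.update_of_ne hji]
        exact hy.2 j (by simp [hji])
  rw [h1]
  have h2 : (Fintype.card (∀ i, Ω i) : ℝ) = (Fintype.card (Ω i) : ℝ) * (sz Ω ({i}ᶜ) : ℝ) := by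
    rw [Fintype.card_pi]
    unfold sz
    rw [Fintype.prod_eq_mul_prod_compl i]
    push_cast
    rfl
  have h3 : (sz Ω ({i}ᶜ) : ℝ) ≠ 0 := by
    unfold sz
    rw [Nat.cast_ne_zero]
    exact Finset.prod_ne_zero_iff.2 fun j _ => Fintype.card_ne_zero
  have h4 : (Fintype.card (Ω i) : ℝ) ≠ 0 := by
    rw [Nat.cast_ne_zero]
    exact Fintype.card_ne_zero
  rw [h2]
  field_simp

theorem cex_sub (T : Finset ι) (f g : (∀ i, Ω i) → ℝ) (x : ∀ i, Ω i) :
    cex T (fun x => f x - g x) x = cex T f x - cex T g x := by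
  have h1 : (fun x => f x - g x) = fun x => f x + (-1) * g x := by
    funext z
    ring
  rw [h1, cex_add, cex_mul_left]
  ring

/-- Efron–Stein component with respect to the coordinates in `J` only. -/
noncomputable def dc (J S : Finset ι) (f : (∀ i, Ω i) → ℝ) (x : ∀ i, Ω i) : ℝ :=
  ∑ T ∈ S.powerset, (-1 : ℝ) ^ (S.card - T.card) * cex (T ∪ Jᶜ) f x

theorem dc_empty (f : (∀ i, Ω i) → ℝ) (x : ∀ i, Ω i) : dc ∅ ∅ f x = f x := by
  unfold dc
  simp [cex_univ]

theorem dc_univ (S : Finset ι) (f : (∀ i, Ω i) → ℝ) (x : ∀ i, Ω i) :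
    dc Finset.univ S f x = cmp f S x := by
  unfold dc cmp
  simp

theorem dc_congr (J S : Finset ι) (f : (∀ i, Ω i) → ℝ) (x y : ∀ i, Ω i)
    (h : ∀ i ∈ S ∪ Jᶜ, x i = y i) : dc J S f x = dc J S f y := by
  unfold dc
  refine Finset.sum_congr rfl fun T hT => ?_
  congr 1
  refine cex_congr _ _ _ _ fun i hi => h i ?_
  exact Finset.union_subset_union_left (Finset.mem_powerset.1 hT) hi

theorem dc_mul_left (J S : Finset ι) (c : ℝ) (f : (∀ i, Ω i) → ℝ) (x : ∀ i, Ω i) :
    dc J S (fun z => c * f z) x = c * dc J S f x := by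
  unfold dc
  rw [Finset.mul_sum]
  refine Finset.sum_congr rfl fun T _ => ?_
  rw [cex_mul_left]
  ring

theorem dc_update {J S : Finset ι} {i : ι} (hi : i ∉ J) (y : Ω i) (f : (∀ i, Ω i) → ℝ)
    (x : ∀ i, Ω i) :
    dc J S (fun z => f (Function.update z i y)) x = dc J S f (Function.update x i y) := by
  unfold dc
  refine Finset.sum_congr rfl fun T _ => ?_
  congr 1
  unfold cex
  congr 1
  funext z
  refine congrArg f ?_
  funext k
  by_cases hk : k = i
  · subst hk
    have hmem : k ∈ T ∪ Jᶜ := Finset.mem_union_right _ (Finset.mem_compl.2 hi)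
    simp [hmem]
  · rw [Function.update_of_ne hk, Function.update_of_ne hk]

theorem dc_insert_notMem {J S : Finset ι} {i : ι} (hi : i ∉ J) (hS : S ⊆ J)
    (f : (∀ i, Ω i) → ℝ) (x : ∀ i, Ω i) :
    dc (insert i J) S f x = dc J S (cex ({i}ᶜ) f) x := by
  unfold dc
  refine Finset.sum_congr rfl fun T hT => ?_
  rw [cex_cex]
  have hTJ : T ⊆ J := (Finset.mem_powerset.1 hT).trans hS
  have hiT : i ∉ T := fun h => hi (hTJ h)
  have h1 : (T ∪ Jᶜ) ∩ {i}ᶜ = T ∪ (insert i J)ᶜ := by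
    ext k
    simp only [Finset.mem_inter, Finset.mem_union, Finset.mem_compl, Finset.mem_singleton,
      Finset.mem_insert]
    by_cases hk : k = i
    · subst hk
      simp [hiT]
    · simp [hk]
  rw [h1]

theorem dc_insert_mem {J S : Finset ι} {i : ι} (hi : i ∉ J) (hS : S ⊆ J)
    (f : (∀ i, Ω i) → ℝ) (x : ∀ i, Ω i) :
    dc (insert i J) (insert i S) f x = dc J S (fun z => f z - cex ({i}ᶜ) f z) x := by
  have hiS : i ∉ S := fun h => hi (hS h)
  have h1 : dc J S (fun z => f z - cex ({i}ᶜ) f z) x =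
      dc J S f x - dc (insert i J) S f x := by
    rw [dc_insert_notMem hi hS]
    unfold dc
    rw [← Finset.sum_sub_distrib]
    refine Finset.sum_congr rfl fun T _ => ?_
    rw [cex_sub]
    ring
  rw [h1]
  unfold dc
  rw [Finset.sum_powerset_insert hiS, sub_eq_neg_add, ← Finset.sum_neg_distrib]
  congr 1
  · refine Finset.sum_congr rfl fun T hT => ?_
    have hc : T.card ≤ S.card := Finset.card_le_card (Finset.mem_powerset.1 hT)
    rw [Finset.card_insert_of_notMem hiS, Nat.succ_sub hc, pow_succ]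
    ring
  · refine Finset.sum_congr rfl fun T hT => ?_
    have hiT : i ∉ T := fun h => hiS (Finset.mem_powerset.1 hT h)
    rw [Finset.card_insert_of_notMem hiS, Finset.card_insert_of_notMem hiT,
      Nat.succ_sub_succ]
    have h2 : insert i T ∪ (insert i J)ᶜ = T ∪ Jᶜ := by
      ext k
      simp only [Finset.mem_union, Finset.mem_compl, Finset.mem_insert]
      by_cases hk : k = i
      · subst hk
        simp [hi]
      · simp [hk]
    rw [h2]

/-- One coordinate step. -/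
theorem step_coord (n : ℕ) (hn : 1 ≤ n) (i : ι) {κ : Type} [Fintype κ]
    (F : (∀ i, Ω i) → κ → ℝ) :
    ex (fun x => (∑ c, F x c ^ 2) ^ n) ≤
      ex (fun x => (∑ c, (cex ({i}ᶜ) (fun w => F w c) x) ^ 2 + 3 * (2 * n) *
        cex ({i}ᶜ) (fun z => ∑ c, (F z c - cex ({i}ᶜ) (fun w => F w c) z) ^ 2) x) ^ n) +
      (4 * (2 * n) : ℝ) ^ (2 * n) *
        ex (fun x => (∑ c, (F x c - cex ({i}ᶜ) (fun w => F w c) x) ^ 2) ^ n) := by
  rw [← ex_cex ({i}ᶜ) (fun x => (∑ c, F x c ^ 2) ^ n),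
    ← ex_cex ({i}ᶜ) (fun x => (∑ c, (F x c - cex ({i}ᶜ) (fun w => F w c) x) ^ 2) ^ n),
    ← ex_mul_left, ← ex_add]
  refine ex_mono _ _ fun x => ?_
  have hup : ∀ (y : Ω i) (c : κ), cex ({i}ᶜ) (fun w => F w c) (Function.update x i y) =
      cex ({i}ᶜ) (fun w => F w c) x := by
    intro y c
    refine cex_congr _ _ _ _ fun j hj => ?_
    have hji : j ≠ i := by
      rw [Finset.mem_compl, Finset.mem_singleton] at hj
      exact hj
    exact Function.update_of_ne hji _ _
  set a : EuclideanSpace ℝ κ := WithLp.toLp 2 (fun c => cex ({i}ᶜ) (fun w => F w c) x) with ha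
  set b : Ω i → EuclideanSpace ℝ κ := fun y =>
    WithLp.toLp 2 (fun c => F (Function.update x i y) c - cex ({i}ᶜ) (fun w => F w c) x) with hb
  have hcard : (Fintype.card (Ω i) : ℝ) ≠ 0 := by
    rw [Nat.cast_ne_zero]
    exact Fintype.card_ne_zero
  have hsum : ∑ y, b y = 0 := by
    ext c
    simp only [hb, WithLp.ofLp_sum, Finset.sum_apply, WithLp.ofLp_zero, Pi.zero_apply]
    rw [Finset.sum_sub_distrib, Finset.sum_const, Finset.card_univ, nsmul_eq_mul,
      cex_compl_singleton]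
    field_simp
    ring
  have hna : ‖a‖ ^ 2 = ∑ c, (cex ({i}ᶜ) (fun w => F w c) x) ^ 2 := by
    rw [EuclideanSpace.real_norm_sq_eq]
  have hnb : ∀ y, ‖b y‖ ^ 2 =
      ∑ c, (F (Function.update x i y) c -
        cex ({i}ᶜ) (fun w => F w c) (Function.update x i y)) ^ 2 := by
    intro y
    rw [EuclideanSpace.real_norm_sq_eq]
    refine Finset.sum_congr rfl fun c _ => ?_
    rw [hup]
  have hnab : ∀ y, ‖a + b y‖ ^ 2 = ∑ c, F (Function.update x i y) c ^ 2 := by
    intro y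
    rw [EuclideanSpace.real_norm_sq_eq]
    refine Finset.sum_congr rfl fun c _ => ?_
    simp only [ha, hb, PiLp.add_apply]
    ring
  have h := one_coord n hn a b hsum
  rw [cex_compl_singleton, cex_compl_singleton, cex_compl_singleton]
  have e1 : ∑ y, ‖a + b y‖ ^ (2 * n) = ∑ y, (∑ c, F (Function.update x i y) c ^ 2) ^ n :=
    Finset.sum_congr rfl fun y _ => by rw [pow_mul, hnab]
  have e2 : ∑ y, ‖b y‖ ^ (2 * n) = ∑ y, (∑ c, (F (Function.update x i y) c -
        cex ({i}ᶜ) (fun w => F w c) (Function.update x i y)) ^ 2) ^ n :=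
    Finset.sum_congr rfl fun y _ => by rw [pow_mul, hnb]
  have e3 : ∑ y, ‖b y‖ ^ 2 = ∑ y, ∑ c, (F (Function.update x i y) c -
        cex ({i}ᶜ) (fun w => F w c) (Function.update x i y)) ^ 2 :=
    Finset.sum_congr rfl fun y _ => hnb y
  rw [e1, e2, e3, hna] at h
  exact h

/-- The tensorised inequality. -/
theorem GH_aux (n : ℕ) (hn : 1 ≤ n) (J : Finset ι) :
    ∀ (κ : Type) [Fintype κ] (F : (∀ i, Ω i) → κ → ℝ),
      ex (fun x => (∑ c, F x c ^ 2) ^ n) ≤
        ∑ U ∈ J.powerset, (4 * (2 * n) : ℝ) ^ (2 * n * U.card) *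
          ex (fun x => (∑ V ∈ (J \ U).powerset, (3 * (2 * n) : ℝ) ^ V.card *
            cex ((J \ U)ᶜ) (fun y => ∑ c, dc J (U ∪ V) (fun z => F z c) y ^ 2) x) ^ n) := by
  induction J using Finset.induction_on with
  | empty =>
    intro κ _ F
    simp [dc_empty, cex_univ]
  | insert i J hi ih =>
    intro κ _ F
    set G : (∀ i, Ω i) → κ → ℝ := fun z c => F z c - cex ({i}ᶜ) (fun w => F w c) z with hG
    set s : ℝ := Real.sqrt (3 * (2 * n) / (Fintype.card (Ω i) : ℝ)) with hs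
    set F' : (∀ i, Ω i) → (κ ⊕ (Ω i × κ)) → ℝ := fun z c' =>
      Sum.elim (fun c => cex ({i}ᶜ) (fun w => F w c) z)
        (fun yc => s * G (Function.update z i yc.1) yc.2) c' with hF'
    have hs2 : s ^ 2 = 3 * (2 * n) / (Fintype.card (Ω i) : ℝ) := Real.sq_sqrt (by positivity)
    -- the first term
    have hstep := step_coord n hn i F
    have hnorm : ∀ x, ∑ c', F' x c' ^ 2 = ∑ c, (cex ({i}ᶜ) (fun w => F w c) x) ^ 2 +
        3 * (2 * n) * cex ({i}ᶜ) (fun z => ∑ c, (F z c - cex ({i}ᶜ) (fun w => F w c) z) ^ 2) x := by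
      intro x
      rw [Fintype.sum_sum_type]
      simp only [hF', Sum.elim_inl, Sum.elim_inr]
      congr 1
      rw [Fintype.sum_prod_type, cex_compl_singleton]
      have : ∀ y : Ω i, ∑ c, (s * G (Function.update x i y) c) ^ 2 =
          3 * (2 * n) / (Fintype.card (Ω i) : ℝ) * ∑ c, (G (Function.update x i y) c) ^ 2 := by
        intro y
        rw [Finset.mul_sum]
        refine Finset.sum_congr rfl fun c _ => ?_
        rw [mul_pow, hs2]
      rw [Finset.sum_congr rfl fun y _ => this y, ← Finset.mul_sum]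
      ring
    have hIH1 := ih (κ ⊕ (Ω i × κ)) F'
    have hIH2 := ih κ G
    rw [Finset.sum_powerset_insert hi]
    have hfirst : ∀ U ∈ J.powerset, ∀ x : (∀ i, Ω i),
        ∑ V ∈ (J \ U).powerset, (3 * (2 * n) : ℝ) ^ V.card *
            cex ((J \ U)ᶜ) (fun y => ∑ c', dc J (U ∪ V) (fun z => F' z c') y ^ 2) x =
        ∑ V ∈ (insert i J \ U).powerset, (3 * (2 * n) : ℝ) ^ V.card *
            cex ((insert i J \ U)ᶜ) (fun y => ∑ c, dc (insert i J) (U ∪ V)
              (fun z => F z c) y ^ 2) x := by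
      intro U hU x
      have hUJ : U ⊆ J := Finset.mem_powerset.1 hU
      have hiU : i ∉ U := fun h => hi (hUJ h)
      have hdiff : insert i J \ U = insert i (J \ U) := Finset.insert_sdiff_of_notMem _ hiU
      have hiJU : i ∉ J \ U := fun h => hi (Finset.sdiff_subset h)
      rw [hdiff, Finset.sum_powerset_insert hiJU, ← Finset.sum_add_distrib]
      refine Finset.sum_congr rfl fun V hV => ?_
      have hVJ : V ⊆ J := (Finset.mem_powerset.1 hV).trans Finset.sdiff_subset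
      have hiV : i ∉ V := fun h => hi (hVJ h)
      have hUV : U ∪ V ⊆ J := Finset.union_subset hUJ hVJ
      have hcompl : (insert i (J \ U))ᶜ = (J \ U)ᶜ ∩ {i}ᶜ := by
        ext k
        simp only [Finset.mem_inter, Finset.mem_compl, Finset.mem_singleton, Finset.mem_insert,
          not_or]
        tauto
      -- the components of `F'`
      have hcomp : ∀ y, ∑ c', dc J (U ∪ V) (fun z => F' z c') y ^ 2 =
          ∑ c, dc (insert i J) (U ∪ V) (fun z => F z c) y ^ 2 +
          3 * (2 * n) * cex ({i}ᶜ) (fun w => ∑ c, dc (insert i J) (insert i (U ∪ V))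
            (fun z => F z c) w ^ 2) y := by
        intro y
        rw [Fintype.sum_sum_type]
        simp only [hF', Sum.elim_inl, Sum.elim_inr]
        congr 1
        · refine Finset.sum_congr rfl fun c _ => ?_
          rw [dc_insert_notMem hi hUV]
        · rw [Fintype.sum_prod_type, cex_compl_singleton]
          have : ∀ y' : Ω i, ∑ c, (dc J (U ∪ V) (fun z => s * G (Function.update z i y') c) y) ^ 2 =
              3 * (2 * n) / (Fintype.card (Ω i) : ℝ) *
                ∑ c, (dc (insert i J) (insert i (U ∪ V)) (fun z => F z c)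
                  (Function.update y i y')) ^ 2 := by
            intro y'
            rw [Finset.mul_sum]
            refine Finset.sum_congr rfl fun c _ => ?_
            rw [dc_mul_left, mul_pow, hs2, dc_update hi y' (fun z => G z c),
              dc_insert_mem hi hUV]
          rw [Finset.sum_congr rfl fun y' _ => this y', ← Finset.mul_sum]
          ring
      have hfun : (fun y => ∑ c', dc J (U ∪ V) (fun z => F' z c') y ^ 2) = fun y =>
          ∑ c, dc (insert i J) (U ∪ V) (fun z => F z c) y ^ 2 +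
          3 * (2 * n) * cex ({i}ᶜ) (fun w => ∑ c, dc (insert i J) (insert i (U ∪ V))
            (fun z => F z c) w ^ 2) y := funext hcomp
      rw [hfun, cex_add, cex_mul_left, cex_cex, hcompl]
      have hdep : cex ((J \ U)ᶜ ∩ {i}ᶜ) (fun y => ∑ c, dc (insert i J) (U ∪ V)
          (fun z => F z c) y ^ 2) x = cex ((J \ U)ᶜ) (fun y => ∑ c, dc (insert i J) (U ∪ V)
          (fun z => F z c) y ^ 2) x := by
        rw [← cex_cex]
        congr 1
        funext y
        refine cex_of_dep _ _ (fun y z hyz => ?_) y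
        refine Finset.sum_congr rfl fun c _ => ?_
        rw [dc_congr (insert i J) (U ∪ V) (fun z => F z c) y z fun j hj => ?_]
        apply hyz
        rw [Finset.mem_compl, Finset.mem_singleton]
        rintro rfl
        rw [Finset.mem_union, Finset.mem_compl] at hj
        rcases hj with hj | hj
        · exact hi (hUV hj)
        · exact hj (Finset.mem_insert_self _ _)
      rw [hdep, Finset.card_insert_of_notMem hiV]
      have hun : U ∪ insert i V = insert i (U ∪ V) := Finset.union_insert _ _ _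
      rw [hun, pow_succ]
      ring
    have hsecond : ∀ U ∈ J.powerset, ∀ x : (∀ i, Ω i),
        ∑ V ∈ (J \ U).powerset, (3 * (2 * n) : ℝ) ^ V.card *
            cex ((J \ U)ᶜ) (fun y => ∑ c, dc J (U ∪ V) (fun z => G z c) y ^ 2) x =
        ∑ V ∈ (insert i J \ insert i U).powerset, (3 * (2 * n) : ℝ) ^ V.card *
            cex ((insert i J \ insert i U)ᶜ) (fun y => ∑ c, dc (insert i J) (insert i U ∪ V)
              (fun z => F z c) y ^ 2) x := by
      intro U hU x
      have hUJ : U ⊆ J := Finset.mem_powerset.1 hU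
      have hdiff : insert i J \ insert i U = J \ U := by
        ext k
        simp only [Finset.mem_sdiff, Finset.mem_insert, not_or]
        constructor
        · rintro ⟨h1 | h1, h2, h3⟩
          · exact absurd h1 h2
          · exact ⟨h1, h3⟩
        · rintro ⟨h1, h2⟩
          exact ⟨Or.inr h1, fun h => hi (h ▸ h1), h2⟩
      rw [hdiff]
      refine Finset.sum_congr rfl fun V hV => ?_
      have hVJ : V ⊆ J := (Finset.mem_powerset.1 hV).trans Finset.sdiff_subset
      have hUV : U ∪ V ⊆ J := Finset.union_subset hUJ hVJ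
      congr 2
      funext y
      refine Finset.sum_congr rfl fun c _ => ?_
      rw [Finset.insert_union, dc_insert_mem hi hUV]
    have hx1 : ex (fun x => (∑ c', F' x c' ^ 2) ^ n) ≤
        ∑ U ∈ J.powerset, (4 * (2 * n) : ℝ) ^ (2 * n * U.card) *
          ex (fun x => (∑ V ∈ (insert i J \ U).powerset, (3 * (2 * n) : ℝ) ^ V.card *
            cex ((insert i J \ U)ᶜ) (fun y => ∑ c, dc (insert i J) (U ∪ V)
              (fun z => F z c) y ^ 2) x) ^ n) := by
      refine hIH1.trans (le_of_eq (Finset.sum_congr rfl fun U hU => ?_))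
      congr 2
      funext x
      rw [hfirst U hU x]
    have hx2 : (4 * (2 * n) : ℝ) ^ (2 * n) * ex (fun x => (∑ c, G x c ^ 2) ^ n) ≤
        ∑ U ∈ J.powerset, (4 * (2 * n) : ℝ) ^ (2 * n * (insert i U).card) *
          ex (fun x => (∑ V ∈ (insert i J \ insert i U).powerset, (3 * (2 * n) : ℝ) ^ V.card *
            cex ((insert i J \ insert i U)ᶜ) (fun y => ∑ c, dc (insert i J) (insert i U ∪ V)
              (fun z => F z c) y ^ 2) x) ^ n) := by
      refine (mul_le_mul_of_nonneg_left hIH2 (by positivity)).trans (le_of_eq ?_)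
      rw [Finset.mul_sum]
      refine Finset.sum_congr rfl fun U hU => ?_
      have hiU : i ∉ U := fun h => hi (Finset.mem_powerset.1 hU h)
      rw [Finset.card_insert_of_notMem hiU, ← mul_assoc, ← pow_add]
      congr 2
      · ring
      · funext x
        rw [hsecond U hU x]
    have hx3 : ex (fun x => (∑ c', F' x c' ^ 2) ^ n) =
        ex (fun x => (∑ c, (cex ({i}ᶜ) (fun w => F w c) x) ^ 2 + 3 * (2 * n) *
        cex ({i}ᶜ) (fun z => ∑ c, (F z c - cex ({i}ᶜ) (fun w => F w c) z) ^ 2) x) ^ n) := by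
      congr 1
      funext x
      rw [hnorm x]
    rw [hx3] at hx1
    linarith

/-- Global hypercontractive type inequality on product spaces (generalised Hölder / moment
inequality), `m = 2 n`:
`E f^m ≤ ∑_U (4m)^{m |U|} E_{x_U} ( ∑_{V ∩ U = ∅} (3m)^{|V|} E_{x_V} |f^{= U ∪ V}|² )^{m/2}`. -/
theorem GH (n : ℕ) (hn : 1 ≤ n) (f : (∀ i, Ω i) → ℝ) :
    ex (fun x => f x ^ (2 * n)) ≤ ∑ U : Finset ι, (4 * (2 * n) : ℝ) ^ (2 * n * U.card) *
      ex (fun x => (∑ V ∈ (Uᶜ).powerset, (3 * (2 * n) : ℝ) ^ V.card *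
        cex U (fun y => cmp f (U ∪ V) y ^ 2) x) ^ n) := by
  have h := GH_aux n hn (Finset.univ : Finset ι) Unit (fun x _ => f x)
  have e1 : ∀ x : (∀ i, Ω i), (∑ _c : Unit, f x ^ 2) ^ n = f x ^ (2 * n) := by
    intro x
    rw [Fintype.sum_unique, ← pow_mul]
  simp only [e1] at h
  refine h.trans (le_of_eq ?_)
  rw [Finset.powerset_univ]
  refine Finset.sum_congr rfl fun U _ => ?_
  simp only [← Finset.compl_eq_univ_sdiff, compl_compl, dc_univ, Fintype.sum_unique]

end Vale.Agent.P042.UB
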