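import Vale.Agent.Lib.P042.UB.Prod.GH

set_option autoImplicit false

namespace Vale.Agent.P042.UB

section szlemmas

variable {ι : Type} [DecidableEq ι] {Ω : ι → Type} [∀ i, Fintype (Ω i)]
  [∀ i, Nonempty (Ω i)]

theorem rl_sz_pos (S : Finset ι) : 0 < sz Ω S :=
  Finset.prod_pos fun _ _ => Fintype.card_pos

theorem rl_sz_empty : sz Ω ∅ = 1 := rfl

theorem rl_sz_union {A B : Finset ι} (h : Disjoint A B) : sz Ω (A ∪ B) = sz Ω A * sz Ω B :=
  Finset.prod_union h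

theorem rl_sz_union_le (A B : Finset ι) : sz Ω (A ∪ B) ≤ sz Ω A * sz Ω B := by
  have h := Finset.prod_union_inter (s₁ := A) (s₂ := B) (f := fun i => Fintype.card (Ω i))
  have h1 : 1 ≤ sz Ω (A ∩ B) := rl_sz_pos _
  calc sz Ω (A ∪ B) ≤ sz Ω (A ∪ B) * sz Ω (A ∩ B) := Nat.le_mul_of_pos_right _ h1
    _ = sz Ω A * sz Ω B := h

theorem rl_sz_mono {A B : Finset ι} (h : A ⊆ B) : sz Ω A ≤ sz Ω B :=
  Finset.prod_le_prod_of_subset_of_one_le' h fun _ _ _ => Fintype.card_pos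

theorem rl_one_le_sz (S : Finset ι) : (1 : ℝ) ≤ (sz Ω S : ℝ) := by
  exact_mod_cast rl_sz_pos (Ω := Ω) S

end szlemmas

variable {ι : Type} [Fintype ι] [DecidableEq ι] {Ω : ι → Type} [∀ i, Fintype (Ω i)]
  [∀ i, DecidableEq (Ω i)] [∀ i, Nonempty (Ω i)]

theorem rl_ex_mul_dep {T : Finset ι} {ν Q : (∀ i, Ω i) → ℝ} (hν : ∀ x, cex T ν x = 1)
    (hQ : ∀ x y, (∀ i ∈ T, x i = y i) → Q x = Q y) : ex (fun x => ν x * Q x) = ex Q := by
  rw [← ex_cex T (fun x => ν x * Q x)]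
  congr 1
  funext x
  have e : (fun x => ν x * Q x) = fun x => Q x * ν x := by
    funext x
    ring
  rw [e, cex_mul_of_dep T Q ν hQ, hν, mul_one]

theorem rl_transfer_aux (J : Finset ι) (K H : ℝ) (hK : 0 ≤ K)
    (ν g : (∀ i, Ω i) → ℝ)
    (hν : ∀ T ⊆ J, (sz Ω T : ℝ) ≤ H → ∀ x, cex T ν x = 1) (c : Finset ι → ℝ)
    (col : Finset (Finset ι)) (hcol : ∀ S ∈ col, S ⊆ J ∧ (sz Ω S : ℝ) ≤ K) (m : ℕ) :
    ∀ (T : Finset ι) (_ : T ⊆ J) (_ : (sz Ω T : ℝ) * K ^ m ≤ H) (Q : (∀ i, Ω i) → ℝ)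
      (_ : ∀ x y, (∀ i ∈ T, x i = y i) → Q x = Q y),
    ex (fun x => ν x * (Q x * (∑ S ∈ col, c S * cmp g S x) ^ m)) =
      ex (fun x => Q x * (∑ S ∈ col, c S * cmp g S x) ^ m) := by
  induction m with
  | zero =>
    intro T hT hTH Q hQ
    simp only [pow_zero, mul_one] at hTH ⊢
    exact rl_ex_mul_dep (hν T hT hTH) hQ
  | succ m ih =>
    intro T hT hTH Q hQ
    have e1 : ∀ x, Q x * (∑ S ∈ col, c S * cmp g S x) ^ (m + 1) =
        ∑ S ∈ col, (Q x * (c S * cmp g S x)) * (∑ S ∈ col, c S * cmp g S x) ^ m := by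
      intro x
      rw [← Finset.sum_mul, ← Finset.mul_sum, pow_succ]
      ring
    have e2 : (fun x => ν x * (Q x * (∑ S ∈ col, c S * cmp g S x) ^ (m + 1))) =
        fun x => ∑ S ∈ col, ν x * ((Q x * (c S * cmp g S x)) *
          (∑ S ∈ col, c S * cmp g S x) ^ m) := by
      funext x
      rw [e1, Finset.mul_sum]
    have e3 : (fun x => Q x * (∑ S ∈ col, c S * cmp g S x) ^ (m + 1)) =
        fun x => ∑ S ∈ col, (Q x * (c S * cmp g S x)) * (∑ S ∈ col, c S * cmp g S x) ^ m := by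
      funext x
      rw [e1]
    rw [e2, e3, ex_sum, ex_sum]
    refine Finset.sum_congr rfl fun S hS => ?_
    obtain ⟨hSJ, hSK⟩ := hcol S hS
    refine ih (T ∪ S) (Finset.union_subset hT hSJ) ?_ (fun x => Q x * (c S * cmp g S x)) ?_
    · have h1 : (sz Ω (T ∪ S) : ℝ) ≤ (sz Ω T : ℝ) * (sz Ω S : ℝ) := by
        exact_mod_cast rl_sz_union_le (Ω := Ω) T S
      have hKm : 0 ≤ K ^ m := pow_nonneg hK m
      have hT0 : (0 : ℝ) ≤ sz Ω T := Nat.cast_nonneg _
      calc (sz Ω (T ∪ S) : ℝ) * K ^ m ≤ (sz Ω T : ℝ) * (sz Ω S : ℝ) * K ^ m :=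
            mul_le_mul_of_nonneg_right h1 hKm
        _ ≤ (sz Ω T : ℝ) * K * K ^ m :=
            mul_le_mul_of_nonneg_right (mul_le_mul_of_nonneg_left hSK hT0) hKm
        _ = (sz Ω T : ℝ) * K ^ (m + 1) := by ring
        _ ≤ H := hTH
    · intro x y hxy
      have h1 : Q x = Q y := hQ x y fun i hi => hxy i (Finset.mem_union_left _ hi)
      have h2 : cmp g S x = cmp g S y :=
        cmp_congr g S x y fun i hi => hxy i (Finset.mem_union_right _ hi)
      simp only [h1, h2]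

/-- Transfer of moments from the density `ν` to the uniform measure.

PROOF. Expand the `m`-th power: `F^m = ∑ ∏_{i<m} c_{S_i} cmp g S_i`; each product depends only on
the coordinates in `T = S_1 ∪ … ∪ S_m ⊆ J`, `sz T ≤ ∏ sz S_i ≤ K^m ≤ H`, so
`ex (ν · product) = ex (cex T ν · product) = ex product` (`cex_mul_of_dep`, `ex_cex`). -/
theorem transfer (m : ℕ) (J : Finset ι) (K H : ℝ) (hK : 0 ≤ K) (hKH : K ^ m ≤ H)
    (ν g : (∀ i, Ω i) → ℝ)
    (hν : ∀ T ⊆ J, (sz Ω T : ℝ) ≤ H → ∀ x, cex T ν x = 1) (c : Finset ι → ℝ)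
    (col : Finset (Finset ι)) (hcol : ∀ S ∈ col, S ⊆ J ∧ (sz Ω S : ℝ) ≤ K) :
    ex (fun x => ν x * (∑ S ∈ col, c S * cmp g S x) ^ m) =
      ex (fun x => (∑ S ∈ col, c S * cmp g S x) ^ m) := by
  have h := rl_transfer_aux J K H hK ν g hν c col hcol m ∅ (Finset.empty_subset _)
    (by rw [rl_sz_empty, Nat.cast_one, one_mul]; exact hKH) (fun _ => 1) (fun _ _ _ => rfl)
  simpa only [one_mul] using h

/-- The restriction of `g` to the fibre `x_T = y_T`, renormalised. -/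
noncomputable def restr (T : Finset ι) (y : ∀ i, Ω i) (g : (∀ i, Ω i) → ℝ) (x : ∀ i, Ω i) : ℝ :=
  if ∀ i ∈ T, x i = y i then (sz Ω T : ℝ) * g x else 0

/-- PROOF. Both sides are the average of `g` over the points agreeing with `y` on `T` and with
`x` on `W` (`cex_eq_sum`). -/
theorem cex_restr (T W : Finset ι) (hTW : Disjoint T W) (y : ∀ i, Ω i) (g : (∀ i, Ω i) → ℝ)
    (x : ∀ i, Ω i) :
    cex W (restr T y g) x = cex (T ∪ W) g (fun i => if i ∈ T then y i else x i) := by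
  rw [cex_eq_sum, cex_eq_sum, rl_sz_union hTW, Nat.cast_mul, mul_comm (sz Ω T : ℝ), mul_assoc]
  congr 1
  rw [← ex_mul_left]
  congr 1
  funext z
  have hiff : (∀ i ∈ T ∪ W, z i = if i ∈ T then y i else x i) ↔
      ((∀ i ∈ W, z i = x i) ∧ ∀ i ∈ T, z i = y i) := by
    constructor
    · intro h
      refine ⟨fun i hi => ?_, fun i hi => ?_⟩
      · have h1 := h i (Finset.mem_union_right _ hi)
        rwa [if_neg (Finset.disjoint_right.1 hTW hi)] at h1
      · have h1 := h i (Finset.mem_union_left _ hi)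
        rwa [if_pos hi] at h1
    · rintro ⟨h1, h2⟩ i hi
      split_ifs with hT
      · exact h2 i hT
      · exact h1 i ((Finset.mem_union.1 hi).resolve_left hT)
  unfold restr
  by_cases hc : ∀ i ∈ T ∪ W, z i = if i ∈ T then y i else x i
  · obtain ⟨h1, h2⟩ := hiff.1 hc
    rw [if_pos h1, if_pos h2, if_pos hc]
  · rw [if_neg hc, mul_zero]
    by_cases h1 : ∀ i ∈ W, z i = x i
    · rw [if_pos h1, if_neg (fun h2 => hc (hiff.2 ⟨h1, h2⟩))]
    · rw [if_neg h1]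

theorem rl_sum_powerset_union {M : Type} [AddCommMonoid M] {U V : Finset ι} (h : Disjoint U V)
    (f : Finset ι → M) :
    ∑ S ∈ (U ∪ V).powerset, f S = ∑ T ∈ U.powerset, ∑ W ∈ V.powerset, f (T ∪ W) := by
  rw [← Finset.sum_product']
  refine Finset.sum_nbij' (fun S => (S ∩ U, S ∩ V)) (fun p => p.1 ∪ p.2) ?_ ?_ ?_ ?_ ?_
  · intro S _
    rw [Finset.mem_product, Finset.mem_powerset, Finset.mem_powerset]
    exact ⟨Finset.inter_subset_right, Finset.inter_subset_right⟩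
  · rintro ⟨T, W⟩ hp
    rw [Finset.mem_product, Finset.mem_powerset, Finset.mem_powerset] at hp
    rw [Finset.mem_powerset]
    exact Finset.union_subset_union hp.1 hp.2
  · intro S hS
    rw [Finset.mem_powerset] at hS
    change S ∩ U ∪ S ∩ V = S
    rw [← Finset.inter_union_distrib_left, Finset.inter_eq_left.2 hS]
  · rintro ⟨T, W⟩ hp
    rw [Finset.mem_product, Finset.mem_powerset, Finset.mem_powerset] at hp
    obtain ⟨hT, hW⟩ := hp
    change ((T ∪ W) ∩ U, (T ∪ W) ∩ V) = (T, W)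
    have h1 : W ∩ U = ∅ := Finset.disjoint_iff_inter_eq_empty.1 ((h.mono_right hW).symm)
    have h2 : T ∩ V = ∅ := Finset.disjoint_iff_inter_eq_empty.1 (h.mono_left hT)
    rw [Finset.union_inter_distrib_right, Finset.union_inter_distrib_right,
      Finset.inter_eq_left.2 hT, Finset.inter_eq_left.2 hW, h1, h2, Finset.union_empty,
      Finset.empty_union]
  · intro S hS
    rw [Finset.mem_powerset] at hS
    change f S = f (S ∩ U ∪ S ∩ V)
    rw [← Finset.inter_union_distrib_left, Finset.inter_eq_left.2 hS]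

theorem rl_cmp_union (U V : Finset ι) (hUV : Disjoint U V) (g : (∀ i, Ω i) → ℝ)
    (y z : ∀ i, Ω i) (hz : ∀ i ∈ U, z i = y i) :
    cmp g (U ∪ V) z = ∑ T ∈ U.powerset, (-1 : ℝ) ^ (U.card - T.card) * cmp (restr T y g) V z := by
  unfold cmp
  rw [rl_sum_powerset_union hUV]
  refine Finset.sum_congr rfl fun T hT => ?_
  rw [Finset.mem_powerset] at hT
  rw [Finset.mul_sum]
  refine Finset.sum_congr rfl fun W hW => ?_
  rw [Finset.mem_powerset] at hW
  have hTW : Disjoint T W := (hUV.mono_left hT).mono_right hW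
  have h1 : cex W (restr T y g) z = cex (T ∪ W) g z := by
    rw [cex_restr T W hTW]
    apply cex_congr
    intro i _
    split_ifs with hi
    · exact (hz i (hT hi)).symm
    · rfl
  rw [h1, ← mul_assoc, ← pow_add, Finset.card_union_of_disjoint hUV,
    Finset.card_union_of_disjoint hTW]
  have c1 := Finset.card_le_card hT
  have c2 := Finset.card_le_card hW
  congr 2
  omega

/-- Energies of components through restrictions.

PROOF. `cmp g (U ∪ V) y = ∑_{T ⊆ U} (-1)^{|U∖T|} ∑_{W ⊆ V} (-1)^{|V∖W|} cex (T ∪ W) g y`, and for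
`z` agreeing with `y` on `U`, `cex (T ∪ W) g z = cex W (restr T y g) z` by `cex_restr`, so
`cmp g (U ∪ V) z = ∑_{T ⊆ U} ± cmp (restr T y g) V z`. Cauchy–Schwarz over the `2^{|U|}` sets `T`;
finally `cex U` at `y` of a function of the coordinates in `V` (disjoint from `U`) is its `ex`. -/
theorem cex_cmp_sq_le (U V : Finset ι) (hUV : Disjoint U V) (g : (∀ i, Ω i) → ℝ)
    (y : ∀ i, Ω i) :
    cex U (fun z => cmp g (U ∪ V) z ^ 2) y ≤
      2 ^ U.card * ∑ T ∈ U.powerset, ex (fun z => cmp (restr T y g) V z ^ 2) := by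
  unfold cex
  rw [← ex_sum U.powerset (fun T z => cmp (restr T y g) V z ^ 2), ← ex_mul_left]
  refine ex_mono _ _ fun z => ?_
  set x : ∀ i, Ω i := fun i => if i ∈ U then y i else z i with hx
  have hxU : ∀ i ∈ U, x i = y i := fun i hi => if_pos hi
  have hxV : ∀ i ∈ V, x i = z i := fun i hi => if_neg (Finset.disjoint_right.1 hUV hi)
  change cmp g (U ∪ V) x ^ 2 ≤ _
  rw [rl_cmp_union U V hUV g y x hxU]
  have h1 : ∀ T, cmp (restr T y g) V x = cmp (restr T y g) V z := fun T =>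
    cmp_congr _ _ _ _ hxV
  simp only [h1]
  have h2 := sq_sum_le_card_mul_sum_sq (s := U.powerset)
    (f := fun T => (-1 : ℝ) ^ (U.card - T.card) * cmp (restr T y g) V z)
  rw [Finset.card_powerset] at h2
  refine h2.trans (le_of_eq ?_)
  push_cast
  congr 1
  refine Finset.sum_congr rfl fun T _ => ?_
  rw [mul_pow, ← pow_mul, mul_comm _ 2, pow_mul]
  norm_num

theorem rl_ex_nonneg {f : (∀ i, Ω i) → ℝ} (h : ∀ x, 0 ≤ f x) : 0 ≤ ex f := by
  have h1 := ex_mono (fun _ => 0) f h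
  rwa [ex_const] at h1

theorem rl_holder (n : ℕ) (hn : 1 ≤ n) (g F : (∀ i, Ω i) → ℝ) (hg : ∀ x, 0 ≤ g x) :
    ex (fun x => g x * F x) ^ (2 * n) ≤
      ex g ^ (2 * n - 1) * ex (fun x => g x * F x ^ (2 * n)) := by
  unfold ex
  set N : ℝ := (Fintype.card (∀ i, Ω i) : ℝ) with hN
  have hN0 : 0 < N := by
    rw [hN]
    exact_mod_cast Fintype.card_pos
  have hm : 2 * n = (2 * n - 1) + 1 := by omega
  set G : ℝ := ∑ x, g x with hG
  have hG0 : 0 ≤ G := Finset.sum_nonneg fun x _ => hg x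
  have key : (∑ x, g x * F x) ^ (2 * n) ≤ G ^ (2 * n - 1) * ∑ x, g x * F x ^ (2 * n) := by
    rcases hG0.eq_or_lt with h0 | hpos
    · have hz : ∀ x, g x = 0 := fun x =>
        (Finset.sum_eq_zero_iff_of_nonneg fun x _ => hg x).1 h0.symm x (Finset.mem_univ x)
      have e1 : ∑ x, g x * F x = 0 := Finset.sum_eq_zero fun x _ => by rw [hz, zero_mul]
      have e2 : ∑ x, g x * F x ^ (2 * n) = 0 := Finset.sum_eq_zero fun x _ => by rw [hz, zero_mul]
      rw [e1, e2, mul_zero, zero_pow (by omega)]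
    · have h1 := Real.pow_arith_mean_le_arith_mean_pow_of_even Finset.univ (fun x => g x / G) F
        (fun x _ => div_nonneg (hg x) hG0) (by rw [← Finset.sum_div, ← hG, div_self hpos.ne'])
        (even_two_mul n)
      have e1 : ∑ x, g x / G * F x = (∑ x, g x * F x) / G := by
        rw [Finset.sum_div]
        exact Finset.sum_congr rfl fun x _ => by ring
      have e2 : ∑ x, g x / G * F x ^ (2 * n) = (∑ x, g x * F x ^ (2 * n)) / G := by
        rw [Finset.sum_div]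
        exact Finset.sum_congr rfl fun x _ => by ring
      rw [e1, e2, div_pow, div_le_div_iff₀ (by positivity) hpos] at h1
      have h2 : (∑ x, g x * F x) ^ (2 * n) * G ≤
          (G ^ (2 * n - 1) * ∑ x, g x * F x ^ (2 * n)) * G := by
        refine h1.trans (le_of_eq ?_)
        have e3 : G ^ (2 * n) = G ^ (2 * n - 1) * G := by
          conv_lhs => rw [hm, pow_succ]
        rw [e3]
        ring
      exact le_of_mul_le_mul_right h2 hpos
  have e4 : (G / N) ^ (2 * n - 1) * ((∑ x, g x * F x ^ (2 * n)) / N) =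
      (G ^ (2 * n - 1) * ∑ x, g x * F x ^ (2 * n)) / N ^ (2 * n) := by
    have e5 : N ^ (2 * n) = N ^ (2 * n - 1) * N := by
      conv_lhs => rw [hm, pow_succ]
    rw [div_pow, div_mul_div_comm, e5]
  rw [e4, div_pow]
  exact div_le_div_of_nonneg_right key (by positivity)

/-- the components of `F` -/
theorem rl_cmp_F (g : (∀ i, Ω i) → ℝ) (c : Finset ι → ℝ) (col : Finset (Finset ι))
    (S' : Finset ι) (x : ∀ i, Ω i) :
    cmp (fun x => ∑ S ∈ col, c S * cmp g S x) S' x =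
      if S' ∈ col then c S' * cmp g S' x else 0 := by
  rw [cmp_sum]
  have h1 : ∀ S ∈ col, cmp (fun x => c S * cmp g S x) S' x =
      if S = S' then c S * cmp g S x else 0 := by
    intro S _
    rw [cmp_mul_left, cmp_cmp]
    split_ifs <;> simp
  rw [Finset.sum_congr rfl h1, Finset.sum_ite_eq' col S' (fun S => c S * cmp g S x)]

theorem rl_ex_gF (g : (∀ i, Ω i) → ℝ) (c : Finset ι → ℝ) (col : Finset (Finset ι)) :
    ex (fun x => g x * ∑ S ∈ col, c S * cmp g S x) =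
      ∑ S ∈ col, c S * ex (fun x => cmp g S x ^ 2) := by
  have e : (fun x => g x * ∑ S ∈ col, c S * cmp g S x) =
      fun x => ∑ S ∈ col, c S * (g x * cmp g S x) := by
    funext x
    rw [Finset.mul_sum]
    exact Finset.sum_congr rfl fun S _ => by ring
  rw [e, ex_sum]
  refine Finset.sum_congr rfl fun S _ => ?_
  rw [ex_mul_left, ex_mul_cmp]

theorem rl_cmp_sq_nonneg (g : (∀ i, Ω i) → ℝ) (S : Finset ι) :
    0 ≤ ex (fun x => cmp g S x ^ 2) := rl_ex_nonneg fun _ => sq_nonneg _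

theorem rl_cex_nonneg {f : (∀ i, Ω i) → ℝ} (h : ∀ x, 0 ≤ f x) (T : Finset ι) (x : ∀ i, Ω i) :
    0 ≤ cex T f x := rl_ex_nonneg fun _ => h _

/-- the inner sum of `GH` for `F` -/
noncomputable def rlB (n : ℕ) (g : (∀ i, Ω i) → ℝ) (c : Finset ι → ℝ) (col : Finset (Finset ι))
    (U : Finset ι) (x : ∀ i, Ω i) : ℝ :=
  ∑ V ∈ (Uᶜ).powerset, (3 * (2 * n) : ℝ) ^ V.card *
    cex U (fun y => cmp (fun x => ∑ S ∈ col, c S * cmp g S x) (U ∪ V) y ^ 2) x

theorem rlB_nonneg (n : ℕ) (g : (∀ i, Ω i) → ℝ) (c : Finset ι → ℝ) (col : Finset (Finset ι))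
    (U : Finset ι) (x : ∀ i, Ω i) : 0 ≤ rlB n g c col U x :=
  Finset.sum_nonneg fun _ _ => mul_nonneg (by positivity) (rl_cex_nonneg (fun _ => sq_nonneg _) _ _)

theorem rlB_eq (n : ℕ) (g : (∀ i, Ω i) → ℝ) (c : Finset ι → ℝ) (col : Finset (Finset ι))
    (U : Finset ι) (x : ∀ i, Ω i) :
    rlB n g c col U x = ∑ V ∈ (Uᶜ).powerset.filter (fun V => U ∪ V ∈ col),
      (3 * (2 * n) : ℝ) ^ V.card * (c (U ∪ V) ^ 2 * cex U (fun y => cmp g (U ∪ V) y ^ 2) x) := by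
  unfold rlB
  rw [Finset.sum_filter]
  refine Finset.sum_congr rfl fun V _ => ?_
  split_ifs with h
  · have e : (fun y => cmp (fun x => ∑ S ∈ col, c S * cmp g S x) (U ∪ V) y ^ 2) =
        fun y => c (U ∪ V) ^ 2 * cmp g (U ∪ V) y ^ 2 := by
      funext y
      rw [rl_cmp_F, if_pos h, mul_pow]
    rw [e, cex_mul_left]
  · have e : (fun y => cmp (fun x => ∑ S ∈ col, c S * cmp g S x) (U ∪ V) y ^ 2) =
        fun _ : (∀ i, Ω i) => (0 : ℝ) := by
      funext y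
      rw [rl_cmp_F, if_neg h]
      norm_num
    rw [e]
    unfold cex
    rw [ex_const, mul_zero]

/-- the collection of sets -/
noncomputable def rlCol (Ω : ι → Type) [∀ i, Fintype (Ω i)] (J : Finset ι) (d : ℕ) (K : ℝ) :
    Finset (Finset ι) := J.powerset.filter (fun S => S.card = d ∧ (sz Ω S : ℝ) ≤ K)

theorem rl_mem_col {J : Finset ι} {d : ℕ} {K : ℝ} {S : Finset ι} :
    S ∈ rlCol Ω J d K ↔ S ⊆ J ∧ S.card = d ∧ (sz Ω S : ℝ) ≤ K := by
  classical
  unfold rlCol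
  rw [Finset.mem_filter, Finset.mem_powerset]

theorem rl_prod_le {w : ι → ℝ} {w₀ : ℝ} (hw : ∀ i, 0 ≤ w i) (hw0 : ∀ i, w i ≤ w₀)
    (S : Finset ι) : ∏ i ∈ S, w i ≤ w₀ ^ S.card := by
  rw [← Finset.prod_const]
  exact Finset.prod_le_prod (fun i _ => hw i) fun i _ => hw0 i

/-- the term `U = ∅` -/
theorem rlB_empty (n : ℕ) (g : (∀ i, Ω i) → ℝ) {w : ι → ℝ} {w₀ : ℝ}
    (hw : ∀ i, 0 ≤ w i) (hw0 : ∀ i, w i ≤ w₀) (J : Finset ι) (d : ℕ) (K : ℝ) (x : ∀ i, Ω i) :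
    rlB n g (fun S => ∏ i ∈ S, w i) (rlCol Ω J d K) ∅ x ≤ (3 * (2 * n * w₀)) ^ d *
      ∑ S ∈ rlCol Ω J d K, (∏ i ∈ S, w i) * ex (fun x => cmp g S x ^ 2) := by
  rw [rlB_eq, Finset.mul_sum]
  have e : ((∅ : Finset ι)ᶜ).powerset.filter (fun V => ∅ ∪ V ∈ rlCol Ω J d K) = rlCol Ω J d K := by
    ext V
    simp
  rw [e]
  refine Finset.sum_le_sum fun V hV => ?_
  obtain ⟨-, hVd, -⟩ := rl_mem_col.1 hV
  rw [Finset.empty_union, cex_empty, hVd]
  have h1 := rl_prod_le hw hw0 V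
  rw [hVd] at h1
  have h2 : 0 ≤ ∏ i ∈ V, w i := Finset.prod_nonneg fun i _ => hw i
  have h3 := rl_cmp_sq_nonneg g V
  have h4 : (∏ i ∈ V, w i) ^ 2 ≤ w₀ ^ d * ∏ i ∈ V, w i := by
    rw [sq]
    exact mul_le_mul_of_nonneg_right h1 h2
  calc (3 * (2 * n) : ℝ) ^ d * ((∏ i ∈ V, w i) ^ 2 * ex fun y => cmp g V y ^ 2)
      ≤ (3 * (2 * n) : ℝ) ^ d * ((w₀ ^ d * ∏ i ∈ V, w i) * ex fun y => cmp g V y ^ 2) := by
        gcongr
    _ = (3 * (2 * n * w₀)) ^ d * ((∏ i ∈ V, w i) * ex fun y => cmp g V y ^ 2) := by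
        rw [← mul_assoc (3 : ℝ) (2 * n) w₀, mul_pow (3 * (2 * n) : ℝ) w₀]
        ring

/-- the terms `U ≠ ∅`, given the level inequalities of lower degree for the restrictions -/
theorem rlB_le (n : ℕ) (g : (∀ i, Ω i) → ℝ) {w : ι → ℝ} {w₀ : ℝ} (hw00 : 0 ≤ w₀)
    (hw : ∀ i, 0 ≤ w i) (hw0 : ∀ i, w i ≤ w₀) (J : Finset ι) (d : ℕ) (K : ℝ) (x : ∀ i, Ω i)
    (U : Finset ι) (hUd : U.card ≤ d) {R : ℝ} (hR : 0 ≤ R)
    (hIH : ∀ T ⊆ U, ∑ V ∈ rlCol Ω (J \ T) (d - U.card) (K / sz Ω T),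
      (∏ i ∈ V, w i) * ex (fun z => cmp (restr T x g) V z ^ 2) ≤ R) :
    rlB n g (fun S => ∏ i ∈ S, w i) (rlCol Ω J d K) U x ≤
      (∏ i ∈ U, w i) ^ 2 * 4 ^ U.card * ((3 * (2 * n * w₀)) ^ (d - U.card) * R) := by
  have hκ : 0 ≤ 3 * (2 * n * w₀) := by positivity
  have hWU : 0 ≤ ∏ i ∈ U, w i := Finset.prod_nonneg fun i _ => hw i
  rw [rlB_eq]
  -- bound of each term
  have hterm : ∀ V ∈ (Uᶜ).powerset.filter (fun V => U ∪ V ∈ rlCol Ω J d K),
      (3 * (2 * n) : ℝ) ^ V.card *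
        ((∏ i ∈ U ∪ V, w i) ^ 2 * cex U (fun y => cmp g (U ∪ V) y ^ 2) x) ≤
      ∑ T ∈ U.powerset, (∏ i ∈ U, w i) ^ 2 * 2 ^ U.card * (3 * (2 * n * w₀)) ^ (d - U.card) *
        ((∏ i ∈ V, w i) * ex (fun z => cmp (restr T x g) V z ^ 2)) := by
    intro V hV
    rw [Finset.mem_filter, Finset.mem_powerset] at hV
    obtain ⟨hVU, hVc⟩ := hV
    obtain ⟨-, hc, -⟩ := rl_mem_col.1 hVc
    have hdis : Disjoint U V := by
      rw [Finset.disjoint_left]
      intro i hi hi'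
      exact (Finset.mem_compl.1 (hVU hi')) hi
    rw [Finset.card_union_of_disjoint hdis] at hc
    have hVd : V.card = d - U.card := by omega
    rw [Finset.prod_union hdis, hVd, ← Finset.mul_sum, ← Finset.mul_sum]
    have h1 := cex_cmp_sq_le U V hdis g x
    have h2 := rl_prod_le hw hw0 V
    rw [hVd] at h2
    have h3 : 0 ≤ ∏ i ∈ V, w i := Finset.prod_nonneg fun i _ => hw i
    have h4 : (∏ i ∈ V, w i) ^ 2 ≤ w₀ ^ (d - U.card) * ∏ i ∈ V, w i := by
      rw [sq]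
      exact mul_le_mul_of_nonneg_right h2 h3
    have h5 : 0 ≤ ∑ T ∈ U.powerset, ex (fun z => cmp (restr T x g) V z ^ 2) :=
      Finset.sum_nonneg fun T _ => rl_cmp_sq_nonneg _ _
    calc (3 * (2 * n) : ℝ) ^ (d - U.card) * (((∏ i ∈ U, w i) * ∏ i ∈ V, w i) ^ 2 *
          cex U (fun y => cmp g (U ∪ V) y ^ 2) x)
        ≤ (3 * (2 * n) : ℝ) ^ (d - U.card) * (((∏ i ∈ U, w i) ^ 2 *
          (w₀ ^ (d - U.card) * ∏ i ∈ V, w i)) *
          (2 ^ U.card * ∑ T ∈ U.powerset, ex (fun z => cmp (restr T x g) V z ^ 2))) := by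
          refine mul_le_mul_of_nonneg_left ?_ (by positivity)
          refine mul_le_mul ?_ h1 (rl_cex_nonneg (fun _ => sq_nonneg _) U x) (by positivity)
          rw [mul_pow]
          exact mul_le_mul_of_nonneg_left h4 (sq_nonneg _)
      _ = _ := by
          rw [← mul_assoc (3 : ℝ) (2 * n) w₀, mul_pow (3 * (2 * n) : ℝ) w₀]
          ring
  refine (Finset.sum_le_sum hterm).trans ?_
  rw [Finset.sum_comm]
  have hT : ∀ T ∈ U.powerset, ∑ V ∈ (Uᶜ).powerset.filter (fun V => U ∪ V ∈ rlCol Ω J d K),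
      (∏ i ∈ U, w i) ^ 2 * 2 ^ U.card * (3 * (2 * n * w₀)) ^ (d - U.card) *
        ((∏ i ∈ V, w i) * ex (fun z => cmp (restr T x g) V z ^ 2)) ≤
      (∏ i ∈ U, w i) ^ 2 * 2 ^ U.card * (3 * (2 * n * w₀)) ^ (d - U.card) * R := by
    intro T hT
    rw [Finset.mem_powerset] at hT
    rw [← Finset.mul_sum]
    refine mul_le_mul_of_nonneg_left (le_trans ?_ (hIH T hT)) (by positivity)
    refine Finset.sum_le_sum_of_subset_of_nonneg ?_ fun V _ _ =>
      mul_nonneg (Finset.prod_nonneg fun i _ => hw i) (rl_cmp_sq_nonneg _ _)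
    intro V hV
    rw [Finset.mem_filter, Finset.mem_powerset] at hV
    obtain ⟨hVU, hVc⟩ := hV
    obtain ⟨hJ, hc, hK⟩ := rl_mem_col.1 hVc
    have hdis : Disjoint U V := by
      rw [Finset.disjoint_left]
      intro i hi hi'
      exact (Finset.mem_compl.1 (hVU hi')) hi
    rw [Finset.card_union_of_disjoint hdis] at hc
    rw [rl_sz_union hdis, Nat.cast_mul] at hK
    refine rl_mem_col.2 ⟨?_, by omega, ?_⟩
    · intro i hi
      rw [Finset.mem_sdiff]
      exact ⟨hJ (Finset.mem_union_right _ hi),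
        fun h => Finset.disjoint_left.1 hdis (hT h) hi⟩
    · have hpos : (0 : ℝ) < sz Ω T := by exact_mod_cast rl_sz_pos (Ω := Ω) T
      rw [le_div_iff₀ hpos]
      have hle : (sz Ω T : ℝ) ≤ sz Ω U := by exact_mod_cast rl_sz_mono (Ω := Ω) hT
      have hV0 : (0 : ℝ) ≤ sz Ω V := Nat.cast_nonneg _
      calc (sz Ω V : ℝ) * sz Ω T ≤ (sz Ω V : ℝ) * sz Ω U := mul_le_mul_of_nonneg_left hle hV0
        _ = (sz Ω U : ℝ) * sz Ω V := mul_comm _ _
        _ ≤ K := hK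
  refine (Finset.sum_le_sum hT).trans (le_of_eq ?_)
  rw [Finset.sum_const, Finset.card_powerset, nsmul_eq_mul]
  have e4 : (4 : ℝ) ^ U.card = 2 ^ U.card * 2 ^ U.card := by
    rw [← mul_pow]
    norm_num
  rw [e4]
  push_cast
  ring

/-- the terms with `U` too large vanish -/
theorem rlB_zero (n : ℕ) (g : (∀ i, Ω i) → ℝ) (c : Finset ι → ℝ) (J : Finset ι) (d : ℕ) (K : ℝ)
    (x : ∀ i, Ω i) (U : Finset ι) (hUd : ¬ (U ⊆ J ∧ U.card ≤ d)) :
    rlB n g c (rlCol Ω J d K) U x = 0 := by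
  rw [rlB_eq, Finset.filter_false_of_mem, Finset.sum_empty]
  intro V _ hV
  obtain ⟨hJ, hc, -⟩ := rl_mem_col.1 hV
  have h1 := Finset.card_le_card (Finset.subset_union_left (s₁ := U) (s₂ := V))
  exact hUd ⟨Finset.subset_union_left.trans hJ, by omega⟩

theorem rl_numeric (n d : ℕ) (hn : 1 ≤ n) (hd : 1 ≤ d) {α κ V : ℝ} (hα : 0 < α) (hκ : 0 < κ)
    (h : V ^ (2 * n) ≤ (2 * Real.exp 1 * α) ^ (2 * n) *
      (((3 * κ) ^ d * V) ^ n + (4 * (1200 * κ ^ 2) ^ d * α ^ 2) ^ n * 0.06)) :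
    V ≤ 4 * (400 * κ) ^ d * α ^ 2 := by
  by_contra hcon
  push Not at hcon
  set e : ℝ := Real.exp 1 with he
  have he0 : 0 < e := Real.exp_pos 1
  have he2 : e ^ 2 ≤ 7.39 := by
    have h1 : e < 2.7182818286 := Real.exp_one_lt_d9
    nlinarith
  set z : ℝ := (400 * κ) ^ d with hz
  have hz0 : 0 < z := by positivity
  set y : ℝ := z * α ^ 2 with hy
  have hy0 : 0 < y := by positivity
  have hVy : 4 * y < V := by
    rw [hy]
    linarith
  have hV0 : 0 < V := by linarith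
  have hr : (3 / 400 : ℝ) ^ d ≤ 3 / 400 := pow_le_of_le_one (by norm_num) (by norm_num) (by omega)
  have h3 : (3 * κ) ^ d ≤ 3 / 400 * z := by
    have e1 : (3 * κ) ^ d = (3 / 400 : ℝ) ^ d * z := by
      rw [hz, ← mul_pow]
      congr 1
      ring
    rw [e1]
    exact mul_le_mul_of_nonneg_right hr hz0.le
  have h4 : (1200 * κ ^ 2) ^ d ≤ 3 / 400 * z ^ 2 := by
    have e1 : (1200 * κ ^ 2) ^ d = (3 / 400 : ℝ) ^ d * z ^ 2 := by
      rw [hz, ← pow_mul, mul_comm d 2, pow_mul, ← mul_pow]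
      congr 1
      ring
    rw [e1]
    exact mul_le_mul_of_nonneg_right hr (by positivity)
  have hq1 : (2 * e * α) ^ 2 * ((3 * κ) ^ d * V) ≤ 0.0555 * V ^ 2 := by
    calc (2 * e * α) ^ 2 * ((3 * κ) ^ d * V) = 4 * α ^ 2 * V * (e ^ 2 * (3 * κ) ^ d) := by ring
      _ ≤ 4 * α ^ 2 * V * (7.39 * (3 / 400 * z)) := by gcongr
      _ = 0.22170 * y * V := by rw [hy]; ring
      _ ≤ 0.0555 * V ^ 2 := by nlinarith
  have hq2 : (2 * e * α) ^ 2 * (4 * (1200 * κ ^ 2) ^ d * α ^ 2) ≤ 0.0555 * V ^ 2 := by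
    calc (2 * e * α) ^ 2 * (4 * (1200 * κ ^ 2) ^ d * α ^ 2)
        = 16 * α ^ 4 * (e ^ 2 * (1200 * κ ^ 2) ^ d) := by ring
      _ ≤ 16 * α ^ 4 * (7.39 * (3 / 400 * z ^ 2)) := by gcongr
      _ = 0.8868 * y ^ 2 := by rw [hy]; ring
      _ ≤ 0.0555 * V ^ 2 := by nlinarith
  have hp1 : (2 * e * α) ^ (2 * n) * ((3 * κ) ^ d * V) ^ n ≤ (0.0555 * V ^ 2) ^ n := by
    rw [pow_mul, ← mul_pow]
    exact pow_le_pow_left₀ (by positivity) hq1 n
  have hp2 : (2 * e * α) ^ (2 * n) * (4 * (1200 * κ ^ 2) ^ d * α ^ 2) ^ n ≤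
      (0.0555 * V ^ 2) ^ n := by
    rw [pow_mul, ← mul_pow]
    exact pow_le_pow_left₀ (by positivity) hq2 n
  have hp3 : (0.0555 * V ^ 2) ^ n ≤ 0.0555 * V ^ (2 * n) := by
    rw [mul_pow, ← pow_mul]
    refine mul_le_mul_of_nonneg_right ?_ (by positivity)
    exact pow_le_of_le_one (by norm_num) (by norm_num) (by omega)
  have hp4 : 0 < V ^ (2 * n) := by positivity
  have h5 : V ^ (2 * n) ≤ (0.0555 * V ^ 2) ^ n + (0.0555 * V ^ 2) ^ n * 0.06 := by
    refine h.trans ?_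
    rw [mul_add, ← mul_assoc ((2 * e * α) ^ (2 * n)) ((4 * (1200 * κ ^ 2) ^ d * α ^ 2) ^ n)]
    exact add_le_add hp1 (mul_le_mul_of_nonneg_right hp2 (by norm_num))
  linarith

theorem rl_exp_bound {n : ℕ} (hn : 2 ≤ n) : Real.exp ((256 / 1200 : ℝ) ^ n) - 1 ≤ 0.06 := by
  have h1 : (256 / 1200 : ℝ) ^ n ≤ (256 / 1200 : ℝ) ^ 2 :=
    pow_le_pow_of_le_one (by norm_num) (by norm_num) hn
  have h2 : Real.exp ((256 / 1200 : ℝ) ^ n) ≤ Real.exp 0.05 := by
    apply Real.exp_le_exp.2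
    refine h1.trans ?_
    norm_num
  have h3 : Real.exp (0.05 : ℝ) ≤ 1.06 := by
    have h4 := Real.add_one_le_exp (-0.05 : ℝ)
    rw [Real.exp_neg] at h4
    have h5 : 0 < Real.exp (0.05 : ℝ) := Real.exp_pos _
    have h6 : (-0.05 + 1 : ℝ) * Real.exp 0.05 ≤ 1 := by
      calc (-0.05 + 1 : ℝ) * Real.exp 0.05 ≤ (Real.exp 0.05)⁻¹ * Real.exp 0.05 :=
            mul_le_mul_of_nonneg_right h4 h5.le
        _ = 1 := inv_mul_cancel₀ h5.ne'
    linarith
  linarith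

theorem rl_sum_nonempty (a : ι → ℝ) (ha : ∀ i, 0 ≤ a i) {X : ℝ} (hX : ∑ i, a i ≤ X) :
    ∑ U ∈ Finset.univ.erase (∅ : Finset ι), ∏ i ∈ U, a i ≤ Real.exp X - 1 := by
  have h1 : ∑ U : Finset ι, ∏ i ∈ U, a i = ∏ i, (1 + a i) := by
    rw [Finset.prod_one_add, Finset.powerset_univ]
  have h2 : ∏ i, (1 + a i) ≤ Real.exp X := by
    calc ∏ i, (1 + a i) ≤ ∏ i, Real.exp (a i) :=
          Finset.prod_le_prod (fun i _ => by have := ha i; linarith)
            fun i _ => by have := Real.add_one_le_exp (a i); linarith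
      _ = Real.exp (∑ i, a i) := (Real.exp_sum _ _).symm
      _ ≤ Real.exp X := Real.exp_le_exp.2 hX
  have h3 := Finset.add_sum_erase Finset.univ (fun U : Finset ι => ∏ i ∈ U, a i)
    (Finset.mem_univ ∅)
  rw [h1, Finset.prod_empty] at h3
  linarith

theorem rl_term_eq (n : ℕ) {κ : ℝ} (hκ : 0 < κ) (α P : ℝ) {u d : ℕ} (hu : u ≤ d) :
    (4 * (2 * n) : ℝ) ^ (2 * n * u) *
      (P ^ 2 * 4 ^ u * ((3 * κ) ^ (d - u) * (4 * (400 * κ) ^ (d - u) * α ^ 2))) ^ n =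
    (((64 * (2 * n) ^ 2 / (1200 * κ ^ 2) : ℝ) ^ n) ^ u * P ^ (2 * n)) *
      (4 * (1200 * κ ^ 2) ^ d * α ^ 2) ^ n := by
  have hd : (1200 * κ ^ 2) ^ d = (1200 * κ ^ 2) ^ (d - u) * (1200 * κ ^ 2) ^ u := by
    rw [← pow_add, Nat.sub_add_cancel hu]
  have h1 : (4 * (2 * n) : ℝ) ^ (2 * n * u) = ((4 * (2 * n) : ℝ) ^ (2 * u)) ^ n := by
    rw [← pow_mul]
    congr 1
    ring
  have h2 : ((64 * (2 * n) ^ 2 / (1200 * κ ^ 2) : ℝ) ^ n) ^ u =
      ((64 * (2 * n) ^ 2 / (1200 * κ ^ 2) : ℝ) ^ u) ^ n := by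
    rw [← pow_mul, ← pow_mul, mul_comm n u]
  rw [h1, h2, pow_mul P 2 n, ← mul_pow, ← mul_pow, ← mul_pow]
  congr 1
  rw [hd]
  have h3 : (64 * (2 * n) ^ 2 / (1200 * κ ^ 2) : ℝ) ^ u * (1200 * κ ^ 2) ^ u =
      (4 * (2 * n) : ℝ) ^ (2 * u) * 4 ^ u := by
    rw [← mul_pow, div_mul_cancel₀ _ (by positivity), pow_mul, ← mul_pow]
    congr 1
    ring
  have h4 : (3 * κ) ^ (d - u) * (400 * κ) ^ (d - u) = (1200 * κ ^ 2) ^ (d - u) := by
    rw [← mul_pow]
    congr 1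
    ring
  calc (4 * (2 * n) : ℝ) ^ (2 * u) *
        (P ^ 2 * 4 ^ u * ((3 * κ) ^ (d - u) * (4 * (400 * κ) ^ (d - u) * α ^ 2)))
      = ((4 * (2 * n) : ℝ) ^ (2 * u) * 4 ^ u) * P ^ 2 * 4 * α ^ 2 *
        ((3 * κ) ^ (d - u) * (400 * κ) ^ (d - u)) := by ring
    _ = _ := by
      rw [← h3, h4]
      ring

theorem rl_restr_nonneg {g : (∀ i, Ω i) → ℝ} (hg : ∀ x, 0 ≤ g x) (T : Finset ι) (y x : ∀ i, Ω i) :
    0 ≤ restr T y g x := by
  unfold restr
  split_ifs
  · exact mul_nonneg (Nat.cast_nonneg _) (hg x)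
  · exact le_rfl

theorem rl_restr_mono {g ν : (∀ i, Ω i) → ℝ} (hg : ∀ x, g x ≤ ν x) (T : Finset ι)
    (y x : ∀ i, Ω i) : restr T y g x ≤ restr T y ν x := by
  unfold restr
  split_ifs
  · exact mul_le_mul_of_nonneg_left (hg x) (Nat.cast_nonneg _)
  · exact le_rfl

theorem rl_two_alpha {n : ℕ} (hn : 1 ≤ n) {α : ℝ} (hα : 0 < α)
    (hαn : Real.exp (-(2 * n : ℝ)) ≤ α) :
    (2 * α) ^ (2 * n - 1) ≤ (2 * Real.exp 1 * α) ^ (2 * n) := by
  have h1 : (2 * Real.exp 1 * α) ^ (2 * n) = (2 * α) ^ (2 * n) * Real.exp (2 * n : ℝ) := by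
    have e1 : (2 * Real.exp 1 * α) = (2 * α) * Real.exp 1 := by ring
    rw [e1, mul_pow, ← Real.exp_nat_mul]
    push_cast
    rw [mul_one]
  have h2 : (2 * α) ^ (2 * n) = (2 * α) ^ (2 * n - 1) * (2 * α) := by
    rw [← pow_succ]
    congr 1
    omega
  have h3 : 1 ≤ α * Real.exp (2 * n : ℝ) := by
    have h4 := mul_le_mul_of_nonneg_right hαn (Real.exp_pos (2 * n : ℝ)).le
    rwa [← Real.exp_add, neg_add_cancel, Real.exp_zero] at h4
  rw [h1, h2]
  have h5 : 0 ≤ (2 * α) ^ (2 * n - 1) := by positivity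
  nlinarith

/-- Rough level inequality: energies of level `d` of a function with no large density
increment.

PROOF, strong induction on `d` (for all `J, K, H, ν, g`). Notation: `m = 2n`,
`w_S = ∏_{i∈S} w i`, `κ = 2 n w₀`, `V_d` = the left-hand side. For `d = 0`: at most the term
`S = ∅`, `(ex g)² ≤ (2α)²` (take `T = ∅`, if `1 ≤ K`). Let `d ≥ 1`,
`F = ∑_{S ⊆ J, |S| = d, sz S ≤ K} w_S cmp g S`. By `ex_mul_cmp`, `V_d = ex (g F)`, and by
Hölder with weight `g`: `V_d^m ≤ (ex g)^{m-1} ex (g F^m) ≤ (2α)^{m-1} ex (ν F^m)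
= (2α)^{m-1} ex (F^m)` (`transfer`); as `1/α ≤ e^{m}`, `(2α)^{m-1} ≤ (2 e α)^m`. (If `K < 1` then
`V_d = 0`.)
`GH` for `F`: `cmp F (U ∪ V) = w_U w_V cmp g (U ∪ V)` if `|U ∪ V| = d`, `sz (U ∪ V) ≤ K`,
`U ∪ V ⊆ J`, else `0` (`cmp_sum`, `cmp_cmp`). Term `U = ∅`: the inner sum is
`∑_{|V|=d} (3m)^d w_V² ex (cmp g V)² ≤ (3 m w₀)^d V_d = (3κ)^d V_d`. Term `|U| = u ≥ 1`: by
`cex_cmp_sq_le` the inner sum is at most
`w_U² 2^u (3m)^{d-u} ∑_{T ⊆ U} ∑_V w_V² ex (cmp (restr T x g) V)²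
≤ w_U² 2^u (3 m w₀)^{d-u} ∑_{T ⊆ U} ∑_V w_V ex (cmp (restr T x g) V)²`, `V` ranging over subsets of
`J∖T` of size `d-u` with `sz V ≤ K/sz U ≤ K/sz T`; induction applied to
`restr T x g ≤ restr T x ν`, `J∖T`, `K/sz T`, `H/sz T` (hypotheses by `cex_restr`) gives
`≤ w_U² 4^u (3κ)^{d-u} 4 (400κ)^{d-u} α²`. Raise to the `n`, multiply by `(4m)^{mu}` and sum over
`U`: `∑_{|U|=u} w_U^m ≤ (∑_i (w i)^m)^u ≤ (2 w₀)^{mu}`. Total:
`ex F^m ≤ ((3κ)^d V_d)^n + ∑_{u=1}^d (16κ)^{mu} (4 (1200κ²)^{d-u} α²)^n`. With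
`y = (400κ)^d α²`: `(2eα)^m ((3κ)^d V_d)^n = (4e² (3/400)^d y V_d)^n ≤ (0.23 y V_d)^n` and the second
part times `(2eα)^m` is at most `(16 e² (1200/160000)^d y²)^n ∑_{u≥1} (256/1200)^{nu}
≤ 0.06 (0.9 y²)^n`. If `V_d > 4 y` this gives
`V_d^{2n} ≤ (0.06)^n V_d^{2n} + 0.06 (0.06)^n V_d^{2n} < V_d^{2n}`, a contradiction. -/
theorem RLI (n : ℕ) (hn : 2 ≤ n) (α : ℝ) (hα : 0 < α) (hα1 : α ≤ 1)
    (hαn : Real.exp (-(2 * n : ℝ)) ≤ α) (w : ι → ℝ) (w₀ : ℝ) (hw00 : 0 ≤ w₀)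
    (hw : ∀ i, 0 ≤ w i)
    (hw0 : ∀ i, w i ≤ w₀) (hsum : ∑ i, w i ^ (2 * n) ≤ (2 * w₀) ^ (2 * n)) (d : ℕ) :
    ∀ (J : Finset ι) (K H : ℝ) (ν g : (∀ i, Ω i) → ℝ), 0 ≤ K → K ^ (2 * n) ≤ H →
      (∀ x, 0 ≤ g x) → (∀ x, g x ≤ ν x) →
      (∀ T ⊆ J, (sz Ω T : ℝ) ≤ H → ∀ x, cex T ν x = 1) →
      (∀ T ⊆ J, (sz Ω T : ℝ) ≤ K → ∀ x, cex T g x ≤ 2 * α) →
      ∑ S ∈ J.powerset.filter (fun S => S.card = d ∧ (sz Ω S : ℝ) ≤ K),
        (∏ i ∈ S, w i) * ex (fun x => cmp g S x ^ 2) ≤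
        4 * (400 * (2 * n * w₀)) ^ d * α ^ 2 := by
  induction d using Nat.strong_induction_on with
  | _ d ih =>
  intro J K H ν g hK hKH hg0 hgν hν hg
  have hcol : J.powerset.filter (fun S => S.card = d ∧ (sz Ω S : ℝ) ≤ K) = rlCol Ω J d K := by
    ext S
    rw [rl_mem_col, Finset.mem_filter, Finset.mem_powerset]
  rw [hcol]
  have hRHS : 0 ≤ 4 * (400 * (2 * n * w₀)) ^ d * α ^ 2 := by positivity
  have hx₀ : Nonempty (∀ i, Ω i) := inferInstance
  obtain ⟨x₀⟩ := hx₀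
  -- `K < 1`
  by_cases hK1 : K < 1
  · have hempty : rlCol Ω J d K = ∅ := by
      rw [Finset.eq_empty_iff_forall_notMem]
      intro S hS
      obtain ⟨-, -, h1⟩ := rl_mem_col.1 hS
      have h2 := rl_one_le_sz (Ω := Ω) S
      linarith
    rw [hempty, Finset.sum_empty]
    exact hRHS
  push Not at hK1
  have hexg : ex g ≤ 2 * α := by
    have h1 := hg ∅ (Finset.empty_subset _) (by rw [rl_sz_empty, Nat.cast_one]; exact hK1) x₀
    rwa [cex_empty] at h1
  have hexg0 : 0 ≤ ex g := rl_ex_nonneg hg0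
  -- `d = 0`
  rcases Nat.eq_zero_or_pos d with hd0 | hd
  · subst hd0
    have hc0 : rlCol Ω J 0 K = {∅} := by
      ext S
      rw [rl_mem_col, Finset.mem_singleton, Finset.card_eq_zero]
      constructor
      · rintro ⟨-, h, -⟩
        exact h
      · rintro rfl
        exact ⟨Finset.empty_subset _, rfl, by rw [rl_sz_empty, Nat.cast_one]; exact hK1⟩
    have hcmp : ∀ x, cmp g ∅ x = ex g := fun x => by
      unfold cmp
      rw [Finset.powerset_empty, Finset.sum_singleton, cex_empty]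
      simp
    rw [hc0, Finset.sum_singleton, Finset.prod_empty, one_mul]
    simp only [hcmp]
    rw [ex_const, pow_zero, mul_one]
    nlinarith
  -- `w₀ = 0`
  rcases hw00.eq_or_lt with hw₀ | hw₀
  · refine le_trans (le_of_eq ?_) hRHS
    refine Finset.sum_eq_zero fun S hS => ?_
    obtain ⟨-, h1, -⟩ := rl_mem_col.1 hS
    have h2 : S.Nonempty := Finset.card_pos.1 (by omega)
    obtain ⟨i, hi⟩ := h2
    have h3 : w i = 0 := le_antisymm (by rw [hw₀]; exact hw0 i) (hw i)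
    rw [Finset.prod_eq_zero hi h3, zero_mul]
  -- main case
  have hn0 : (0 : ℝ) < n := by
    have : 0 < n := by omega
    exact_mod_cast this
  set κ : ℝ := 2 * n * w₀ with hκdef
  have hκ : 0 < κ := by positivity
  set V : ℝ := ∑ S ∈ rlCol Ω J d K, (∏ i ∈ S, w i) * ex (fun x => cmp g S x ^ 2) with hV
  have hV0 : 0 ≤ V := Finset.sum_nonneg fun S _ =>
    mul_nonneg (Finset.prod_nonneg fun i _ => hw i) (rl_cmp_sq_nonneg _ _)
  set c : Finset ι → ℝ := fun S => ∏ i ∈ S, w i with hc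
  set F : (∀ i, Ω i) → ℝ := fun x => ∑ S ∈ rlCol Ω J d K, c S * cmp g S x with hF
  have hVF : ex (fun x => g x * F x) = V := rl_ex_gF g c (rlCol Ω J d K)
  have hFnn : ∀ x, 0 ≤ F x ^ (2 * n) := fun x => by
    rw [pow_mul]
    exact pow_nonneg (sq_nonneg _) n
  have hFF0 : 0 ≤ ex (fun x => F x ^ (2 * n)) := rl_ex_nonneg hFnn
  -- Hölder and transfer
  have h1 : V ^ (2 * n) ≤ (2 * α) ^ (2 * n - 1) * ex (fun x => F x ^ (2 * n)) := by
    have e1 := rl_holder n (by omega) g F hg0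
    rw [hVF] at e1
    refine e1.trans ?_
    have e2 : ex (fun x => g x * F x ^ (2 * n)) ≤ ex (fun x => F x ^ (2 * n)) := by
      rw [← transfer (2 * n) J K H hK hKH ν g hν c (rlCol Ω J d K)
        (fun S hS => ⟨(rl_mem_col.1 hS).1, (rl_mem_col.1 hS).2.2⟩)]
      exact ex_mono _ _ fun x => mul_le_mul_of_nonneg_right (hgν x) (hFnn x)
    exact mul_le_mul (pow_le_pow_left₀ hexg0 hexg _) e2
      (rl_ex_nonneg fun x => mul_nonneg (hg0 x) (hFnn x)) (by positivity)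
  have h2 := rl_two_alpha (by omega : 1 ≤ n) hα hαn
  -- the moment of `F`
  set C : ℝ := (4 * (1200 * κ ^ 2) ^ d * α ^ 2) ^ n with hC
  have hC0 : 0 ≤ C := by positivity
  set a : ι → ℝ := fun i => (64 * (2 * n) ^ 2 / (1200 * κ ^ 2) : ℝ) ^ n * w i ^ (2 * n) with ha
  have ha0 : ∀ i, 0 ≤ a i := fun i => by
    have := hw i
    rw [ha]
    positivity
  have hasum : ∑ i, a i ≤ (256 / 1200 : ℝ) ^ n := by
    rw [ha, ← Finset.mul_sum]
    calc (64 * (2 * n) ^ 2 / (1200 * κ ^ 2) : ℝ) ^ n * ∑ i, w i ^ (2 * n)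
        ≤ (64 * (2 * n) ^ 2 / (1200 * κ ^ 2) : ℝ) ^ n * (2 * w₀) ^ (2 * n) :=
          mul_le_mul_of_nonneg_left hsum (by positivity)
      _ = (256 / 1200 : ℝ) ^ n := by
          rw [pow_mul, ← mul_pow]
          congr 1
          rw [hκdef]
          field_simp
          ring
  have h3 : ex (fun x => F x ^ (2 * n)) ≤ ((3 * κ) ^ d * V) ^ n + C * 0.06 := by
    have e1 := GH n (by omega) F
    have e2 : ∀ U : Finset ι, (4 * (2 * n) : ℝ) ^ (2 * n * U.card) *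
        ex (fun x => (∑ V ∈ (Uᶜ).powerset, (3 * (2 * n) : ℝ) ^ V.card *
          cex U (fun y => cmp F (U ∪ V) y ^ 2) x) ^ n) =
        (4 * (2 * n) : ℝ) ^ (2 * n * U.card) *
          ex (fun x => rlB n g c (rlCol Ω J d K) U x ^ n) := fun U => rfl
    rw [Finset.sum_congr rfl fun U _ => e2 U] at e1
    rw [← Finset.add_sum_erase Finset.univ _ (Finset.mem_univ (∅ : Finset ι))] at e1
    refine e1.trans (add_le_add ?_ ?_)
    · rw [Finset.card_empty, mul_zero, pow_zero, one_mul]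
      have e3 : ex (fun x => rlB n g c (rlCol Ω J d K) ∅ x ^ n) ≤
          ex (fun _ : (∀ i, Ω i) => ((3 * κ) ^ d * V) ^ n) :=
        ex_mono _ _ fun x => pow_le_pow_left₀ (rlB_nonneg _ _ _ _ _ _)
          (rlB_empty n g hw hw0 J d K x) n
      rwa [ex_const] at e3
    · have e4 : ∀ U ∈ Finset.univ.erase (∅ : Finset ι), (4 * (2 * n) : ℝ) ^ (2 * n * U.card) *
          ex (fun x => rlB n g c (rlCol Ω J d K) U x ^ n) ≤ (∏ i ∈ U, a i) * C := by
        intro U hU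
        have hUne : U ≠ ∅ := Finset.ne_of_mem_erase hU
        have hUpos : 0 < U.card := Finset.card_pos.2 (Finset.nonempty_iff_ne_empty.2 hUne)
        have hprod : ∏ i ∈ U, a i = ((64 * (2 * n) ^ 2 / (1200 * κ ^ 2) : ℝ) ^ n) ^ U.card *
            (∏ i ∈ U, w i) ^ (2 * n) := by
          rw [ha, Finset.prod_mul_distrib, Finset.prod_const, Finset.prod_pow]
        by_cases hUJ : U ⊆ J ∧ U.card ≤ d
        · obtain ⟨hUJ, hUd⟩ := hUJ
          have e5 : ∀ x, rlB n g c (rlCol Ω J d K) U x ≤ (∏ i ∈ U, w i) ^ 2 * 4 ^ U.card *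
              ((3 * κ) ^ (d - U.card) * (4 * (400 * κ) ^ (d - U.card) * α ^ 2)) := by
            intro x
            refine rlB_le n g hw00 hw hw0 J d K x U hUd (by positivity) fun T hT => ?_
            have hTpos : (0 : ℝ) < sz Ω T := by exact_mod_cast rl_sz_pos (Ω := Ω) T
            have hT1 := rl_one_le_sz (Ω := Ω) T
            have hTJ : T ⊆ J := hT.trans hUJ
            have e6 := ih (d - U.card) (by omega) (J \ T) (K / sz Ω T) (H / sz Ω T)
              (restr T x ν) (restr T x g) (div_nonneg hK hTpos.le) (by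
                rw [div_pow]
                have hH : 0 ≤ H := le_trans (pow_nonneg hK _) hKH
                have hpow : (sz Ω T : ℝ) ≤ (sz Ω T : ℝ) ^ (2 * n) :=
                  le_self_pow₀ hT1 (by omega)
                calc K ^ (2 * n) / (sz Ω T : ℝ) ^ (2 * n) ≤ H / (sz Ω T : ℝ) ^ (2 * n) :=
                      div_le_div_of_nonneg_right hKH (by positivity)
                  _ ≤ H / sz Ω T := div_le_div_of_nonneg_left hH hTpos hpow)
              (fun z => rl_restr_nonneg hg0 T x z) (fun z => rl_restr_mono hgν T x z)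
              (fun T' hT' hsz z => by
                have hdis : Disjoint T T' := by
                  rw [Finset.disjoint_left]
                  intro i hi hi'
                  exact (Finset.mem_sdiff.1 (hT' hi')).2 hi
                rw [cex_restr T T' hdis]
                apply hν _ (Finset.union_subset hTJ (hT'.trans Finset.sdiff_subset))
                rw [rl_sz_union hdis, Nat.cast_mul]
                rw [le_div_iff₀ hTpos] at hsz
                linarith)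
              (fun T' hT' hsz z => by
                have hdis : Disjoint T T' := by
                  rw [Finset.disjoint_left]
                  intro i hi hi'
                  exact (Finset.mem_sdiff.1 (hT' hi')).2 hi
                rw [cex_restr T T' hdis]
                apply hg _ (Finset.union_subset hTJ (hT'.trans Finset.sdiff_subset))
                rw [rl_sz_union hdis, Nat.cast_mul]
                rw [le_div_iff₀ hTpos] at hsz
                linarith)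
            refine le_trans (le_of_eq ?_) e6
            refine Finset.sum_congr ?_ fun _ _ => rfl
            ext S
            rw [rl_mem_col, Finset.mem_filter, Finset.mem_powerset]
          rw [hprod, ← rl_term_eq n hκ α (∏ i ∈ U, w i) hUd]
          refine mul_le_mul_of_nonneg_left ?_ (by positivity)
          have e7 := ex_mono _ _ fun x => pow_le_pow_left₀ (rlB_nonneg n g c (rlCol Ω J d K) U x)
            (e5 x) n
          rwa [ex_const] at e7
        · have e8 : (fun x => rlB n g c (rlCol Ω J d K) U x ^ n) = fun _ => 0 := by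
            funext x
            rw [rlB_zero n g c J d K x U hUJ, zero_pow (by omega)]
          rw [e8, ex_const, mul_zero]
          exact mul_nonneg (Finset.prod_nonneg fun i _ => ha0 i) hC0
      refine (Finset.sum_le_sum e4).trans ?_
      rw [← Finset.sum_mul, mul_comm C]
      refine mul_le_mul_of_nonneg_right ?_ hC0
      exact (rl_sum_nonempty a ha0 hasum).trans (rl_exp_bound hn)
  refine rl_numeric n d (by omega) hd hα hκ (h1.trans ?_)
  refine (mul_le_mul_of_nonneg_right h2 hFF0).trans ?_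
  exact mul_le_mul_of_nonneg_left h3 (by positivity)

end Vale.Agent.P042.UB
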